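import Crest.Agent.CrouzeixMetric.Metric

set_option autoImplicit false

open scoped ComplexOrder
open Matrix Crest.AnalysisR.NumRange Polynomial

namespace Crest.Agent.CrouzeixMetric

attribute [local instance] Matrix.frobeniusNormedAddCommGroup Matrix.frobeniusNormedSpace
  Matrix.frobeniusNormedRing Matrix.frobeniusNormedAlgebra

variable {n : ℕ}

/-- The statement S0179 specialised to Euclidean space and `m = n`. -/
def S0179Spec (n : ℕ) : Prop :=
  ∀ (A : EuclideanSpace ℂ (Fin n) →L[ℂ] EuclideanSpace ℂ (Fin n)) (d : ℕ)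
    (B : Fin (d + 1) → Matrix (Fin n) (Fin n) ℂ) (M : ℝ),
    (∀ x : EuclideanSpace ℂ (Fin n), ‖x‖ = 1 →
      ‖Matrix.toEuclideanCLM (n := Fin n) (𝕜 := ℂ)
          (∑ k : Fin (d + 1), (inner ℂ x (A x)) ^ (k : ℕ) • B k)‖ ≤ M) →
    ∀ v : PiLp 2 (fun _ : Fin n => EuclideanSpace ℂ (Fin n)),
    ‖(WithLp.toLp 2 (fun i : Fin n => ∑ j : Fin n, ∑ k : Fin (d + 1), B k i j • (A ^ (k : ℕ)) (v j))
        : PiLp 2 (fun _ : Fin n => EuclideanSpace ℂ (Fin n)))‖ ≤ 2 * M * ‖v‖

/-- Operator-norm bound from a coordinate bound. -/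
lemma norm_toEuclideanCLM_le (W : Mat n) {c : ℝ} (hc : 0 ≤ c)
    (h : ∀ ξ : Fin n → ℂ, qn (W *ᵥ ξ) ≤ c * qn ξ) :
    ‖Matrix.toEuclideanCLM (n := Fin n) (𝕜 := ℂ) W‖ ≤ Real.sqrt c := by
  refine ContinuousLinearMap.opNorm_le_bound _ (Real.sqrt_nonneg _) fun u => ?_
  have h1 := h (WithLp.ofLp u)
  rw [qn_eq_norm_sq, qn_eq_norm_sq] at h1
  have h2 : Matrix.toEuclideanCLM (n := Fin n) (𝕜 := ℂ) W u
      = WithLp.toLp 2 (W *ᵥ WithLp.ofLp u) := rfl
  rw [h2]
  have h3 : (WithLp.toLp 2 (WithLp.ofLp u) : EuclideanSpace ℂ (Fin n)) = u := rfl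
  rw [h3] at h1
  refine abs_le_of_sq_le_sq' ?_ (by positivity) |>.2
  rw [mul_pow, Real.sq_sqrt hc]
  exact h1

/-- Entrywise complex conjugate. -/
noncomputable def conjM (M : Mat n) : Mat n := M.map star

lemma qn_star (ξ : Fin n → ℂ) : qn (star ξ) = qn ξ := by
  simp [qn]

lemma conjM_mulVec (W : Mat n) (ξ : Fin n → ℂ) : conjM W *ᵥ ξ = star (W *ᵥ star ξ) := by
  ext i
  simp only [conjM, Matrix.mulVec, dotProduct, Pi.star_apply, Matrix.map_apply, star_sum, star_mul',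
    star_star]

/-- The bridge from S0179: the calculus for polynomials bounded by one on the numerical range. -/
theorem cb_of_poly (hS : S0179Spec n) (A : Mat n) (q : ℂ[X])
    (hq : ∀ z ∈ numRange A, ‖q.eval z‖ ≤ 1) (K : ℕ) (Ξ : ℕ → Mat n) (c : ℝ) (hc : 0 ≤ c)
    (hΞ : ∀ ω : ℂ, ‖ω‖ ≤ 1 → ∀ ξ : Fin n → ℂ,
      qn ((∑ k ∈ Finset.range (K + 1), ω ^ k • Ξ k) *ᵥ ξ) ≤ c * qn ξ) (y : Mat n) :
    fro (∑ k ∈ Finset.range (K + 1), (aeval A q) ^ k * y * (Ξ k)ᴴ) ≤ 4 * c * fro y := by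
  classical
  set A' := Matrix.toEuclideanCLM (n := Fin n) (𝕜 := ℂ) A with hA'
  set T := aeval A q with hT
  set d := K * q.natDegree with hd
  let B : Fin (d + 1) → Mat n := fun l =>
    ∑ k ∈ Finset.range (K + 1), ((q ^ k).coeff (l : ℕ)) • conjM (Ξ k)
  have hdeg : ∀ k ∈ Finset.range (K + 1), (q ^ k).natDegree < d + 1 := by
    intro k hk
    have hk' : k ≤ K := Nat.lt_succ_iff.1 (Finset.mem_range.1 hk)
    calc (q ^ k).natDegree ≤ k * q.natDegree := natDegree_pow_le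
      _ ≤ K * q.natDegree := Nat.mul_le_mul_right _ hk'
      _ < d + 1 := Nat.lt_succ_self _
  -- (i) evaluation of the matrix polynomial
  have hB : ∀ z : ℂ, ∑ l : Fin (d + 1), z ^ (l : ℕ) • B l
      = ∑ k ∈ Finset.range (K + 1), (q.eval z) ^ k • conjM (Ξ k) := by
    intro z
    simp only [B, Finset.smul_sum]
    rw [Finset.sum_comm]
    refine Finset.sum_congr rfl fun k hk => ?_
    have h1 : (q.eval z) ^ k = ∑ l ∈ Finset.range (d + 1), (q ^ k).coeff l * z ^ l := by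
      rw [← eval_pow, eval_eq_sum_range' (hdeg k hk)]
    rw [h1, Finset.sum_smul, Finset.sum_range]
    refine Finset.sum_congr rfl fun l _ => ?_
    rw [smul_smul, mul_comm]
  -- (ii) evaluation on the operator
  have hA2 : ∀ k ∈ Finset.range (K + 1), ∀ u : EuclideanSpace ℂ (Fin n),
      ∑ l : Fin (d + 1), ((q ^ k).coeff (l : ℕ)) • (A' ^ (l : ℕ)) u
        = Matrix.toEuclideanCLM (n := Fin n) (𝕜 := ℂ) (T ^ k) u := by
    intro k hk u
    have h1 : Matrix.toEuclideanCLM (n := Fin n) (𝕜 := ℂ) (T ^ k)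
        = aeval A' (q ^ k) := by
      have e : T ^ k = aeval A (q ^ k) := by rw [map_pow]
      rw [e]
      exact (aeval_algHom_apply (Matrix.toEuclideanCLM (n := Fin n) (𝕜 := ℂ)).toAlgEquiv.toAlgHom A
        (q ^ k)).symm
    rw [h1, aeval_eq_sum_range' (hdeg k hk), Finset.sum_range]
    simp only [ContinuousLinearMap.coe_sum', Finset.sum_apply, ContinuousLinearMap.coe_smul',
      Pi.smul_apply]
  -- the vector `v`
  let v : PiLp 2 (fun _ : Fin n => EuclideanSpace ℂ (Fin n)) :=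
    WithLp.toLp 2 fun j => WithLp.toLp 2 fun a => y a j
  have hv : ‖v‖ ^ 2 = fro y := by
    rw [PiLp.norm_sq_eq_of_L2]
    simp only [v, EuclideanSpace.norm_sq_eq, fro]
    rw [Finset.sum_comm]
  set Z := ∑ k ∈ Finset.range (K + 1), T ^ k * y * (Ξ k)ᴴ with hZ
  -- (iii) the image vector
  have himg : (WithLp.toLp 2 (fun i : Fin n => ∑ j : Fin n, ∑ l : Fin (d + 1),
        B l i j • (A' ^ (l : ℕ)) (v j)) : PiLp 2 (fun _ : Fin n => EuclideanSpace ℂ (Fin n)))
      = WithLp.toLp 2 fun i => WithLp.toLp 2 fun a => Z a i := by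
    congr 1
    funext i
    have h1 : ∀ j : Fin n, ∑ l : Fin (d + 1), B l i j • (A' ^ (l : ℕ)) (v j)
        = ∑ k ∈ Finset.range (K + 1), (star (Ξ k i j)) •
            Matrix.toEuclideanCLM (n := Fin n) (𝕜 := ℂ) (T ^ k) (v j) := by
      intro j
      simp only [B, Matrix.sum_apply, Matrix.smul_apply, smul_eq_mul, conjM, Matrix.map_apply,
        Finset.sum_smul]
      rw [Finset.sum_comm]
      refine Finset.sum_congr rfl fun k hk => ?_
      rw [← hA2 k hk, Finset.smul_sum]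
      refine Finset.sum_congr rfl fun l _ => ?_
      rw [smul_smul, mul_comm]
    simp only [h1]
    ext a
    have h3 : ∀ (k : ℕ) (j : Fin n), (Matrix.toEuclideanCLM (n := Fin n) (𝕜 := ℂ) (T ^ k)
        (v j)) a = (T ^ k * y) a j := by
      intro k j
      have : v j = WithLp.toLp 2 fun a => y a j := rfl
      rw [this, Matrix.toEuclideanCLM_toLp]
      simp [Matrix.mulVec, dotProduct, Matrix.mul_apply]
    simp only [WithLp.ofLp_sum, WithLp.ofLp_smul, Finset.sum_apply, Pi.smul_apply, smul_eq_mul, h3]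
    have hZa : Z a i = ∑ k ∈ Finset.range (K + 1), ∑ j, (T ^ k * y) a j * star (Ξ k i j) := by
      simp only [hZ, Matrix.sum_apply]
      refine Finset.sum_congr rfl fun k _ => ?_
      rw [Matrix.mul_apply]
      simp only [Matrix.conjTranspose_apply]
    rw [hZa, Finset.sum_comm]
    refine Finset.sum_congr rfl fun k _ => Finset.sum_congr rfl fun j _ => ?_
    ring
  have himgn : ‖(WithLp.toLp 2 (fun i : Fin n => WithLp.toLp 2 fun a => Z a i)
      : PiLp 2 (fun _ : Fin n => EuclideanSpace ℂ (Fin n)))‖ ^ 2 = fro Z := by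
    rw [PiLp.norm_sq_eq_of_L2]
    simp only [EuclideanSpace.norm_sq_eq, fro]
    rw [Finset.sum_comm]
  -- apply S0179
  have hM : ∀ x : EuclideanSpace ℂ (Fin n), ‖x‖ = 1 →
      ‖Matrix.toEuclideanCLM (n := Fin n) (𝕜 := ℂ)
          (∑ l : Fin (d + 1), (inner ℂ x (A' x)) ^ (l : ℕ) • B l)‖ ≤ Real.sqrt c := by
    intro x hx
    rw [hB]
    set z : ℂ := inner ℂ x (A' x) with hz
    have hzmem : z ∈ numRange A := ⟨x, hx, rfl⟩
    have hω := hq z hzmem
    refine norm_toEuclideanCLM_le _ hc fun ξ => ?_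
    have h1 : (∑ k ∈ Finset.range (K + 1), (q.eval z) ^ k • conjM (Ξ k))
        = conjM (∑ k ∈ Finset.range (K + 1), (star (q.eval z)) ^ k • Ξ k) := by
      ext a b
      simp [conjM, Matrix.sum_apply, Matrix.smul_apply]
    rw [h1, conjM_mulVec, qn_star]
    have := hΞ (star (q.eval z)) (by simpa using hω) (star ξ)
    rwa [qn_star] at this
  have hfin := hS A' d B (Real.sqrt c) hM v
  rw [himg] at hfin
  have h5 : ‖(WithLp.toLp 2 (fun i : Fin n => WithLp.toLp 2 fun a => Z a i)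
      : PiLp 2 (fun _ : Fin n => EuclideanSpace ℂ (Fin n)))‖ ^ 2
      ≤ (2 * Real.sqrt c * ‖v‖) ^ 2 := pow_le_pow_left₀ (norm_nonneg _) hfin 2
  rw [himgn, mul_pow, mul_pow, Real.sq_sqrt hc, hv] at h5
  linarith

/-- From polynomials bounded by `1 + δ` to the `CBound` of `T`. -/
theorem cBound_of_approx (hS : S0179Spec n) (A T : Mat n)
    (happ : ∀ δ : ℝ, 0 < δ → ∃ q : ℂ[X], aeval A q = T ∧ ∀ z ∈ numRange A, ‖q.eval z‖ ≤ 1 + δ) :
    CBound T := by
  classical
  intro K Ξ c hc hΞ y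
  -- scale
  have hscale : ∀ j : ℕ, fro (∑ k ∈ Finset.range (K + 1),
      (((1 + 1 / ((j : ℝ) + 1))⁻¹ : ℝ) • T) ^ k * y * (Ξ k)ᴴ) ≤ 4 * c * fro y := by
    intro j
    have hpos : (0 : ℝ) < 1 / ((j : ℝ) + 1) := by positivity
    obtain ⟨q, hq1, hq2⟩ := happ _ hpos
    set t : ℝ := (1 + 1 / ((j : ℝ) + 1))⁻¹ with ht
    have ht0 : 0 < t := by positivity
    have hq' : ∀ z ∈ numRange A, ‖(C (t : ℂ) * q).eval z‖ ≤ 1 := by
      intro z hz
      rw [eval_mul, eval_C, norm_mul, Complex.norm_real, Real.norm_of_nonneg ht0.le]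
      have h1 := hq2 z hz
      have h2 : t * ‖q.eval z‖ ≤ t * (1 + 1 / ((j : ℝ) + 1)) := by
        exact mul_le_mul_of_nonneg_left h1 ht0.le
      rwa [ht, inv_mul_cancel₀ (by positivity)] at h2
    have h3 := cb_of_poly hS A (C (t : ℂ) * q) hq' K Ξ c hc hΞ y
    have h4 : aeval A (C (t : ℂ) * q) = (t : ℝ) • T := by
      rw [map_mul, aeval_C, hq1, Algebra.algebraMap_eq_smul_one, smul_mul_assoc, one_mul]
      ext a b
      simp [Matrix.smul_apply]
    rwa [h4] at h3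
  have hlim : Filter.Tendsto (fun j : ℕ => fro (∑ k ∈ Finset.range (K + 1),
      (((1 + 1 / ((j : ℝ) + 1))⁻¹ : ℝ) • T) ^ k * y * (Ξ k)ᴴ)) Filter.atTop
      (nhds (fro (∑ k ∈ Finset.range (K + 1), T ^ k * y * (Ξ k)ᴴ))) := by
    have ht : Filter.Tendsto (fun j : ℕ => ((1 + 1 / ((j : ℝ) + 1))⁻¹ : ℝ)) Filter.atTop
        (nhds (1 : ℝ)) := by
      have h1 : Filter.Tendsto (fun j : ℕ => 1 / ((j : ℝ) + 1)) Filter.atTop (nhds 0) :=
        tendsto_one_div_add_atTop_nhds_zero_nat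
      have h2 := (h1.const_add 1).inv₀ (by norm_num)
      simpa using h2
    have hcont : Continuous fun t : ℝ => fro (∑ k ∈ Finset.range (K + 1),
        (t • T) ^ k * y * (Ξ k)ᴴ) := by
      simp only [fro_eq_norm_sq]
      refine (Continuous.norm ?_).pow 2
      refine continuous_finsetSum _ fun k _ => ?_
      exact (((continuous_id.smul continuous_const).pow k).mul continuous_const).mul
        continuous_const
    have := hcont.tendsto (1 : ℝ)
    simp only [one_smul] at this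
    exact this.comp ht
  exact le_of_tendsto' hlim hscale

end Crest.Agent.CrouzeixMetric
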