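import Crest.Agent.CrouzeixMetric.Lurking

set_option autoImplicit false

open scoped ComplexOrder
open Matrix

namespace Crest.Agent.CrouzeixMetric

attribute [local instance] Matrix.frobeniusNormedAddCommGroup Matrix.frobeniusNormedSpace
  Matrix.frobeniusNormedRing Matrix.frobeniusNormedAlgebra

/-- Square matrices. -/
abbrev Mat (n : ℕ) := Matrix (Fin n) (Fin n) ℂ

variable {n : ℕ}

/-- The squared Frobenius norm. -/
noncomputable def fro (M : Mat n) : ℝ := ∑ i, ∑ j, ‖M i j‖ ^ 2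

lemma fro_eq_norm_sq (M : Mat n) : fro M = ‖M‖ ^ 2 := by
  rw [Matrix.frobenius_norm_def, ← Real.rpow_natCast, ← Real.rpow_mul (by positivity)]
  norm_num [fro]

lemma fro_nonneg (M : Mat n) : 0 ≤ fro M := by
  rw [fro_eq_norm_sq]; positivity

lemma trace_mul_conjTranspose_re (x : Mat n) : (x * xᴴ).trace.re = fro x := by
  have h : (x * xᴴ).trace = ((fro x : ℝ) : ℂ) := by
    simp only [Matrix.trace, Matrix.diag_apply, Matrix.mul_apply, Matrix.conjTranspose_apply, fro]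
    push_cast
    refine Finset.sum_congr rfl fun i _ => Finset.sum_congr rfl fun j _ => ?_
    rw [← Complex.mul_conj']
    rfl
  rw [h, Complex.ofReal_re]

lemma exists_factor (A : Mat n) (hA : A.PosSemidef) : ∃ x : Mat n, A = x * xᴴ := by
  classical
  open scoped MatrixOrder in
  obtain ⟨X, hX, -, hXA⟩ := CFC.exists_sqrt_of_isSelfAdjoint_of_quasispectrumRestricts
    (a := A) hA.isHermitian (QuasispectrumRestricts.nnreal_of_nonneg hA.nonneg)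
  refine ⟨X, ?_⟩
  have : Xᴴ = X := hX.star_eq
  rw [this]
  simpa using hXA.symm

/-- Completely bounded calculus for `T` with constant `2`: a matrix polynomial `Ξ(ω)` with
`‖Ξ(ω)‖² ≤ c` on the closed unit disc satisfies
`‖∑ Tᵏ y (Ξ k)ᴴ‖_F² ≤ 4 c ‖y‖_F²`. -/
def CBound (T : Mat n) : Prop :=
  ∀ (K : ℕ) (Ξ : ℕ → Mat n) (c : ℝ), 0 ≤ c →
    (∀ ω : ℂ, ‖ω‖ ≤ 1 → ∀ ξ : Fin n → ℂ,
      qn ((∑ k ∈ Finset.range (K + 1), ω ^ k • Ξ k) *ᵥ ξ) ≤ c * qn ξ) →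
    ∀ y : Mat n, fro (∑ k ∈ Finset.range (K + 1), T ^ k * y * (Ξ k)ᴴ) ≤ 4 * c * fro y

/-- Blocks produced by the lurking isometry. -/
structure LurkBlocks (x y r T L₁₁ L₁₂ L₂₁ L₂₂ : Mat n) : Prop where
  top : L₁₁ * yᴴ + L₁₂ * (rᴴ * Tᴴ) = xᴴ
  bot : L₂₁ * yᴴ + L₂₂ * (rᴴ * Tᴴ) = rᴴ
  iso : ∀ ξ η : Fin n → ℂ,
    qn (L₁₁ *ᵥ ξ + L₁₂ *ᵥ η) + qn (L₂₁ *ᵥ ξ + L₂₂ *ᵥ η) = qn ξ + qn η

lemma qn_sumElim (u v : Fin n → ℂ) : qn (Sum.elim u v) = qn u + qn v := by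
  simp [qn, Fintype.sum_sum_type]

lemma exists_lurkBlocks (x y r T : Mat n)
    (h : x * xᴴ + r * rᴴ = y * yᴴ + T * (r * rᴴ) * Tᴴ) :
    ∃ L₁₁ L₁₂ L₂₁ L₂₂ : Mat n, LurkBlocks x y r T L₁₁ L₁₂ L₂₁ L₂₂ := by
  classical
  let a : Matrix (Fin n ⊕ Fin n) (Fin n) ℂ := fromRows yᴴ (rᴴ * Tᴴ)
  let b : Matrix (Fin n ⊕ Fin n) (Fin n) ℂ := fromRows xᴴ rᴴ
  have hab : aᴴ * a = bᴴ * b := by
    simp only [a, b, conjTranspose_fromRows_eq_fromCols_conjTranspose, fromCols_mul_fromRows,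
      conjTranspose_conjTranspose, conjTranspose_mul]
    rw [h]
    simp [Matrix.mul_assoc]
  obtain ⟨L, hL, hiso⟩ := lurking a b hab
  refine ⟨L.toBlocks₁₁, L.toBlocks₁₂, L.toBlocks₂₁, L.toBlocks₂₂, ?_, ?_, ?_⟩
  · have : fromBlocks L.toBlocks₁₁ L.toBlocks₁₂ L.toBlocks₂₁ L.toBlocks₂₂ * a = b := by
      rw [fromBlocks_toBlocks]; exact hL
    simp only [a, b, fromBlocks_mul_fromRows] at this
    exact (fromRows_inj this).1
  · have : fromBlocks L.toBlocks₁₁ L.toBlocks₁₂ L.toBlocks₂₁ L.toBlocks₂₂ * a = b := by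
      rw [fromBlocks_toBlocks]; exact hL
    simp only [a, b, fromBlocks_mul_fromRows] at this
    exact (fromRows_inj this).2
  · intro ξ η
    have h1 := hiso (Sum.elim ξ η)
    rw [← fromBlocks_toBlocks L, fromBlocks_mulVec] at h1
    simp only [Sum.elim_comp_inl, Sum.elim_comp_inr, qn_sumElim] at h1
    simpa using h1

/-- Coefficients of the Schur function attached to the blocks. -/
noncomputable def xi (L₁₁ L₁₂ L₂₁ L₂₂ : Mat n) : ℕ → Mat n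
  | 0 => L₁₁
  | (k + 1) => L₁₂ * L₂₂ ^ k * L₂₁

section Blocks

variable {x y r T L₁₁ L₁₂ L₂₁ L₂₂ : Mat n}

lemma series_identity (hB : LurkBlocks x y r T L₁₁ L₁₂ L₂₁ L₂₂) (K : ℕ) :
    xᴴ = ∑ k ∈ Finset.range (K + 1), xi L₁₁ L₁₂ L₂₁ L₂₂ k * yᴴ * (Tᴴ) ^ k
      + L₁₂ * L₂₂ ^ K * rᴴ * (Tᴴ) ^ (K + 1) := by
  induction K with
  | zero =>
    simp only [zero_add, Finset.range_one, Finset.sum_singleton, xi, pow_zero, mul_one, pow_one]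
    rw [← hB.top, Matrix.mul_assoc L₁₂]
  | succ K ih =>
    rw [Finset.sum_range_succ, add_assoc]
    have h2 : xi L₁₁ L₁₂ L₂₁ L₂₂ (K + 1) * yᴴ * (Tᴴ) ^ (K + 1)
        + L₁₂ * L₂₂ ^ (K + 1) * rᴴ * (Tᴴ) ^ (K + 1 + 1)
        = L₁₂ * L₂₂ ^ K * rᴴ * (Tᴴ) ^ (K + 1) := by
      have hb := hB.bot
      calc _ = L₁₂ * L₂₂ ^ K * (L₂₁ * yᴴ + L₂₂ * (rᴴ * Tᴴ)) * (Tᴴ) ^ (K + 1) := by
              simp only [xi, pow_succ' (Tᴴ) (K + 1), pow_succ L₂₂ K, Matrix.mul_add, Matrix.add_mul,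
                Matrix.mul_assoc]
        _ = _ := by rw [hb]
    rw [h2]
    exact ih

lemma series_identity' (hB : LurkBlocks x y r T L₁₁ L₁₂ L₂₁ L₂₂) (K : ℕ) :
    x = ∑ k ∈ Finset.range (K + 1), T ^ k * y * (xi L₁₁ L₁₂ L₂₁ L₂₂ k)ᴴ
      + T ^ (K + 1) * r * (L₂₂ ^ K)ᴴ * L₁₂ᴴ := by
  have h := congrArg conjTranspose (series_identity hB K)
  rw [conjTranspose_conjTranspose] at h
  rw [h]
  simp only [conjTranspose_add, conjTranspose_sum, conjTranspose_mul, conjTranspose_conjTranspose,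
    conjTranspose_pow, Matrix.mul_assoc]

lemma qn_zero : qn (0 : Fin n → ℂ) = 0 := by simp [qn]

lemma qn_L22 (hB : LurkBlocks x y r T L₁₁ L₁₂ L₂₁ L₂₂) (η : Fin n → ℂ) :
    qn (L₂₂ *ᵥ η) ≤ qn η := by
  have := hB.iso 0 η
  simp only [mulVec_zero, zero_add, qn_zero] at this
  linarith [qn_nonneg (L₁₂ *ᵥ η)]

lemma qn_L12 (hB : LurkBlocks x y r T L₁₁ L₁₂ L₂₁ L₂₂) (η : Fin n → ℂ) :
    qn (L₁₂ *ᵥ η) ≤ qn η := by
  have := hB.iso 0 η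
  simp only [mulVec_zero, zero_add, qn_zero] at this
  linarith [qn_nonneg (L₂₂ *ᵥ η)]

lemma qn_L21 (hB : LurkBlocks x y r T L₁₁ L₁₂ L₂₁ L₂₂) (ξ : Fin n → ℂ) :
    qn (L₂₁ *ᵥ ξ) ≤ qn ξ := by
  have := hB.iso ξ 0
  simp only [mulVec_zero, add_zero, qn_zero] at this
  linarith [qn_nonneg (L₁₁ *ᵥ ξ)]

lemma qn_L11 (hB : LurkBlocks x y r T L₁₁ L₁₂ L₂₁ L₂₂) (ξ : Fin n → ℂ) :
    qn (L₁₁ *ᵥ ξ) ≤ qn ξ := by
  have := hB.iso ξ 0
  simp only [mulVec_zero, add_zero, qn_zero] at this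
  linarith [qn_nonneg (L₂₁ *ᵥ ξ)]

lemma qn_L22_pow (hB : LurkBlocks x y r T L₁₁ L₁₂ L₂₁ L₂₂) (j : ℕ) (η : Fin n → ℂ) :
    qn ((L₂₂ ^ j) *ᵥ η) ≤ qn η := by
  induction j with
  | zero => simp
  | succ j ih =>
    rw [pow_succ', ← Matrix.mulVec_mulVec]
    exact (qn_L22 hB _).trans ih

/-- Euclidean norm of a coordinate vector. -/
noncomputable def nv (v : Fin n → ℂ) : ℝ := ‖(WithLp.toLp 2 v : EuclideanSpace ℂ (Fin n))‖

lemma nv_nonneg (v : Fin n → ℂ) : 0 ≤ nv v := norm_nonneg _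

lemma nv_sq (v : Fin n → ℂ) : nv v ^ 2 = qn v := (qn_eq_norm_sq v).symm

lemma nv_add_le (u v : Fin n → ℂ) : nv (u + v) ≤ nv u + nv v := by
  simpa [nv] using norm_add_le (WithLp.toLp 2 u : EuclideanSpace ℂ (Fin n)) (WithLp.toLp 2 v)

lemma nv_smul (c : ℂ) (v : Fin n → ℂ) : nv (c • v) = ‖c‖ * nv v := by
  simpa [nv] using norm_smul c (WithLp.toLp 2 v : EuclideanSpace ℂ (Fin n))

lemma nv_le_of_qn_le {u v : Fin n → ℂ} (h : qn u ≤ qn v) : nv u ≤ nv v := by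
  rw [← nv_sq, ← nv_sq] at h
  exact (sq_le_sq₀ (nv_nonneg _) (nv_nonneg _)).1 h

lemma qn_smul (c : ℂ) (v : Fin n → ℂ) : qn (c • v) = ‖c‖ ^ 2 * qn v := by
  rw [← nv_sq, ← nv_sq, nv_smul, mul_pow]

/-- Partial sums of `(1 - ω L₂₂)⁻¹ L₂₁ ξ`. -/
noncomputable def eta (L₂₁ L₂₂ : Mat n) (ω : ℂ) (ξ : Fin n → ℂ) (K : ℕ) : Fin n → ℂ :=
  ∑ j ∈ Finset.range K, ω ^ j • ((L₂₂ ^ j * L₂₁) *ᵥ ξ)

lemma eta_succ (L₂₁ L₂₂ : Mat n) (ω : ℂ) (ξ : Fin n → ℂ) (K : ℕ) :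
    L₂₁ *ᵥ ξ + L₂₂ *ᵥ (ω • eta L₂₁ L₂₂ ω ξ K) = eta L₂₁ L₂₂ ω ξ (K + 1) := by
  simp only [eta]
  rw [Finset.sum_range_succ', Finset.smul_sum, Matrix.mulVec_sum]
  simp only [pow_zero, one_smul, one_mul, add_comm (L₂₁ *ᵥ ξ)]
  congr 1
  refine Finset.sum_congr rfl fun j _ => ?_
  rw [Matrix.mulVec_smul, Matrix.mulVec_smul, smul_smul, pow_succ', pow_succ']
  simp only [Matrix.mulVec_mulVec, Matrix.mul_assoc]

lemma eta_top (L₁₁ L₁₂ L₂₁ L₂₂ : Mat n) (ω : ℂ) (ξ : Fin n → ℂ) (K : ℕ) :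
    L₁₁ *ᵥ ξ + L₁₂ *ᵥ (ω • eta L₂₁ L₂₂ ω ξ K)
      = (∑ k ∈ Finset.range (K + 1), ω ^ k • xi L₁₁ L₁₂ L₂₁ L₂₂ k) *ᵥ ξ := by
  rw [Finset.sum_range_succ', Matrix.add_mulVec, add_comm]
  simp only [xi, pow_zero, one_smul]
  congr 1
  simp only [eta, Finset.smul_sum, Matrix.mulVec_sum, Matrix.sum_mulVec]
  refine Finset.sum_congr rfl fun j _ => ?_
  rw [Matrix.mulVec_smul, Matrix.mulVec_smul, smul_smul, Matrix.smul_mulVec, pow_succ',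
    Matrix.mulVec_mulVec, Matrix.mul_assoc]

/-- Truncated Schur bound. -/
lemma schur_trunc (hB : LurkBlocks x y r T L₁₁ L₁₂ L₂₁ L₂₂) {ω : ℂ} (hω : ‖ω‖ < 1)
    (ξ : Fin n → ℂ) (K : ℕ) :
    qn ((∑ k ∈ Finset.range (K + 1), ω ^ k • xi L₁₁ L₁₂ L₂₁ L₂₂ k) *ᵥ ξ)
      ≤ (1 + (‖ω‖ ^ K) ^ 2 / (1 - ‖ω‖ ^ 2)) * qn ξ := by
  set w := ‖ω‖ with hw
  have hw0 : 0 ≤ w := norm_nonneg _
  set E := eta L₂₁ L₂₂ ω ξ with hE
  have hiso := hB.iso ξ (ω • E K)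
  rw [eta_top L₁₁ L₁₂ L₂₁ L₂₂ ω ξ K, eta_succ L₂₁ L₂₂ ω ξ K, qn_smul] at hiso
  set Q := qn ((∑ k ∈ Finset.range (K + 1), ω ^ k • xi L₁₁ L₁₂ L₂₁ L₂₂ k) *ᵥ ξ) with hQ
  -- triangle inequality for `E`
  have hEs : E (K + 1) = E K + ω ^ K • ((L₂₂ ^ K * L₂₁) *ᵥ ξ) := by
    simp only [hE, eta, Finset.sum_range_succ]
  set c := nv ξ with hc
  have hc0 : 0 ≤ c := nv_nonneg _
  set t := nv (E K) with ht
  set t' := nv (E (K + 1)) with ht'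
  have ht0 : 0 ≤ t := nv_nonneg _
  have ht'0 : 0 ≤ t' := nv_nonneg _
  set d := w ^ K * c with hd
  have hd0 : 0 ≤ d := by positivity
  have htle : t ≤ t' + d := by
    have h1 : E K = E (K + 1) + (-ω ^ K) • ((L₂₂ ^ K * L₂₁) *ᵥ ξ) := by
      rw [hEs]; simp
    have h2 : nv ((L₂₂ ^ K * L₂₁) *ᵥ ξ) ≤ c := by
      rw [← Matrix.mulVec_mulVec]
      exact nv_le_of_qn_le ((qn_L22_pow hB K _).trans (qn_L21 hB ξ))
    calc t = nv (E (K + 1) + (-ω ^ K) • ((L₂₂ ^ K * L₂₁) *ᵥ ξ)) := by rw [ht, ← h1]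
      _ ≤ t' + nv ((-ω ^ K) • ((L₂₂ ^ K * L₂₁) *ᵥ ξ)) := nv_add_le _ _
      _ = t' + w ^ K * nv ((L₂₂ ^ K * L₂₁) *ᵥ ξ) := by
          rw [nv_smul, norm_neg, norm_pow]
      _ ≤ t' + d := by
          have : w ^ K * nv ((L₂₂ ^ K * L₂₁) *ᵥ ξ) ≤ w ^ K * c :=
            mul_le_mul_of_nonneg_left h2 (by positivity)
          linarith
  -- algebra
  have hqξ : qn ξ = c ^ 2 := (nv_sq ξ).symm
  have hqE : qn (E K) = t ^ 2 := (nv_sq _).symm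
  have hqE' : qn (E (K + 1)) = t' ^ 2 := (nv_sq _).symm
  rw [hqξ, hqE, hqE'] at hiso
  have hw1 : w ^ 2 < 1 := by nlinarith
  set a := 1 - w ^ 2 with ha
  have ha0 : 0 < a := by linarith
  have hmain : w ^ 2 * t ^ 2 - t' ^ 2 ≤ d ^ 2 / a := by
    have h1 : w ^ 2 * t ^ 2 ≤ w ^ 2 * (t' + d) ^ 2 := by
      apply mul_le_mul_of_nonneg_left _ (by positivity)
      exact pow_le_pow_left₀ ht0 htle 2
    have h2 : w ^ 2 * (t' + d) ^ 2 - t' ^ 2 ≤ d ^ 2 / a := by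
      rw [le_div_iff₀ ha0]
      have hw2 : w ^ 2 = 1 - a := by rw [ha]; ring
      rw [hw2]
      nlinarith [sq_nonneg (a * t' - (1 - a) * d), sq_nonneg d, mul_nonneg ha0.le (sq_nonneg d)]
    linarith
  have : Q ≤ c ^ 2 + d ^ 2 / a := by
    have hQe : Q = c ^ 2 + w ^ 2 * t ^ 2 - t' ^ 2 := by linarith
    rw [hQe]; linarith
  calc Q ≤ c ^ 2 + d ^ 2 / a := this
    _ = (1 + (w ^ K) ^ 2 / a) * qn ξ := by
        rw [hqξ, hd]; field_simp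

/-- Scaled form of the truncated Schur bound: with `ω₀` in the closed disc and `0 ≤ ρ < 1`. -/
lemma schur_scaled (hB : LurkBlocks x y r T L₁₁ L₁₂ L₂₁ L₂₂) {ρ : ℝ} (hρ0 : 0 ≤ ρ) (hρ1 : ρ < 1)
    (K : ℕ) (ω₀ : ℂ) (hω₀ : ‖ω₀‖ ≤ 1) (ξ : Fin n → ℂ) :
    qn ((∑ k ∈ Finset.range (K + 1), ω₀ ^ k • (((ρ : ℂ) ^ k) • xi L₁₁ L₁₂ L₂₁ L₂₂ k)) *ᵥ ξ)
      ≤ (1 + (ρ ^ K) ^ 2 / (1 - ρ ^ 2)) * qn ξ := by
  set ω : ℂ := (ρ : ℂ) * ω₀ with hω
  have hnorm : ‖ω‖ ≤ ρ := by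
    rw [hω, norm_mul, Complex.norm_real, Real.norm_of_nonneg hρ0]
    exact mul_le_of_le_one_right hρ0 hω₀
  have hlt : ‖ω‖ < 1 := hnorm.trans_lt hρ1
  have h1 := schur_trunc hB hlt ξ K
  have hsum : (∑ k ∈ Finset.range (K + 1), ω₀ ^ k • (((ρ : ℂ) ^ k) • xi L₁₁ L₁₂ L₂₁ L₂₂ k))
      = ∑ k ∈ Finset.range (K + 1), ω ^ k • xi L₁₁ L₁₂ L₂₁ L₂₂ k := by
    refine Finset.sum_congr rfl fun k _ => ?_
    rw [smul_smul, hω, mul_pow, mul_comm]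
  rw [hsum]
  refine h1.trans (mul_le_mul_of_nonneg_right ?_ (qn_nonneg ξ))
  have hw0 : 0 ≤ ‖ω‖ := norm_nonneg _
  have h2 : (‖ω‖ ^ K) ^ 2 ≤ (ρ ^ K) ^ 2 :=
    pow_le_pow_left₀ (by positivity) (pow_le_pow_left₀ hw0 hnorm K) 2
  have h3 : 1 - ρ ^ 2 ≤ 1 - ‖ω‖ ^ 2 := by
    have := pow_le_pow_left₀ hw0 hnorm 2
    linarith
  have h4 : 0 < 1 - ρ ^ 2 := by nlinarith
  have : (‖ω‖ ^ K) ^ 2 / (1 - ‖ω‖ ^ 2) ≤ (ρ ^ K) ^ 2 / (1 - ρ ^ 2) :=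
    div_le_div₀ (by positivity) h2 h4 h3
  linarith

/-- A matrix contractive on coordinate vectors has `fro ≤ n`. -/
lemma fro_le_of_contraction (M : Mat n) (hM : ∀ ξ : Fin n → ℂ, qn (M *ᵥ ξ) ≤ qn ξ) :
    fro M ≤ n := by
  classical
  have h1 : fro M = ∑ j, qn (M *ᵥ Pi.single j 1) := by
    simp only [fro, qn, Matrix.mulVec_single_one, Matrix.col_apply]
    rw [Finset.sum_comm]
  have h2 : ∀ j : Fin n, qn (Pi.single j (1 : ℂ)) = 1 := by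
    intro j
    simp only [qn]
    rw [Finset.sum_eq_single j]
    · simp
    · intro i _ hij; simp [Pi.single_eq_of_ne hij]
    · simp
  rw [h1]
  calc ∑ j, qn (M *ᵥ Pi.single j 1) ≤ ∑ j : Fin n, (1 : ℝ) :=
        Finset.sum_le_sum fun j _ => (hM _).trans (h2 j).le
    _ = n := by simp

lemma fro_conjTranspose (M : Mat n) : fro Mᴴ = fro M := by
  simp only [fro, Matrix.conjTranspose_apply, norm_star]
  rw [Finset.sum_comm]

lemma norm_conjTranspose_eq (M : Mat n) : ‖Mᴴ‖ = ‖M‖ := by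
  have h := fro_conjTranspose M
  rw [fro_eq_norm_sq, fro_eq_norm_sq] at h
  exact (sq_eq_sq₀ (norm_nonneg _) (norm_nonneg _)).1 h

lemma qn_xi (hB : LurkBlocks x y r T L₁₁ L₁₂ L₂₁ L₂₂) (k : ℕ) (ξ : Fin n → ℂ) :
    qn (xi L₁₁ L₁₂ L₂₁ L₂₂ k *ᵥ ξ) ≤ qn ξ := by
  cases k with
  | zero => exact qn_L11 hB ξ
  | succ k =>
    simp only [xi]
    rw [← Matrix.mulVec_mulVec, ← Matrix.mulVec_mulVec]
    exact (qn_L12 hB _).trans ((qn_L22_pow hB k _).trans (qn_L21 hB ξ))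

lemma norm_xi_le (hB : LurkBlocks x y r T L₁₁ L₁₂ L₂₁ L₂₂) (k : ℕ) :
    ‖(xi L₁₁ L₁₂ L₂₁ L₂₂ k)ᴴ‖ ≤ Real.sqrt n := by
  rw [norm_conjTranspose_eq]
  apply Real.le_sqrt_of_sq_le
  rw [← fro_eq_norm_sq]
  exact fro_le_of_contraction _ (qn_xi hB k)

lemma norm_L22_pow_le (hB : LurkBlocks x y r T L₁₁ L₁₂ L₂₁ L₂₂) (k : ℕ) :
    ‖(L₂₂ ^ k)ᴴ‖ ≤ Real.sqrt n := by
  rw [norm_conjTranspose_eq]
  apply Real.le_sqrt_of_sq_le
  rw [← fro_eq_norm_sq]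
  exact fro_le_of_contraction _ (qn_L22_pow hB k)

noncomputable instance : CompleteSpace (Mat n) := FiniteDimensional.complete ℝ _

/-- The main estimate: `fro x ≤ 4 fro y`. -/
theorem fro_le_four (hB : LurkBlocks x y r T L₁₁ L₁₂ L₂₁ L₂₂)
    (hT : Summable fun k => ‖T ^ k‖) (hCB : CBound T) : fro x ≤ 4 * fro y := by
  set Ξ := xi L₁₁ L₁₂ L₂₁ L₂₂ with hΞ
  let G : ℕ → Mat n := fun k => T ^ k * y * (Ξ k)ᴴ
  have hGb : ∀ k, ‖G k‖ ≤ (‖y‖ * Real.sqrt n) * ‖T ^ k‖ := by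
    intro k
    calc ‖G k‖ ≤ ‖T ^ k * y‖ * ‖(Ξ k)ᴴ‖ := norm_mul_le _ _
      _ ≤ (‖T ^ k‖ * ‖y‖) * ‖(Ξ k)ᴴ‖ := by gcongr; exact norm_mul_le _ _
      _ ≤ (‖T ^ k‖ * ‖y‖) * Real.sqrt n := by gcongr; exact norm_xi_le hB k
      _ = _ := by ring
  have hbound : Summable fun k => (‖y‖ * Real.sqrt n) * ‖T ^ k‖ := hT.mul_left _
  have hGs : Summable G := Summable.of_norm_bounded hbound hGb
  -- partial sums converge to `x`
  have hTk : Filter.Tendsto (fun k => ‖T ^ k‖) Filter.atTop (nhds 0) := hT.tendsto_atTop_zero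
  have hx : (∑' k, G k) = x := by
    have h1 : Filter.Tendsto (fun K => ∑ k ∈ Finset.range (K + 1), G k) Filter.atTop
        (nhds (∑' k, G k)) :=
      (hGs.hasSum.tendsto_sum_nat).comp (Filter.tendsto_add_atTop_nat 1)
    have h2 : Filter.Tendsto (fun K => ∑ k ∈ Finset.range (K + 1), G k) Filter.atTop (nhds x) := by
      have hrem : Filter.Tendsto (fun K => T ^ (K + 1) * r * (L₂₂ ^ K)ᴴ * L₁₂ᴴ) Filter.atTop
          (nhds 0) := by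
        refine (tendsto_zero_iff_norm_tendsto_zero).2 ?_
        have hb : ∀ K, ‖T ^ (K + 1) * r * (L₂₂ ^ K)ᴴ * L₁₂ᴴ‖
            ≤ ‖T ^ (K + 1)‖ * (‖r‖ * Real.sqrt n * ‖L₁₂ᴴ‖) := by
          intro K
          calc _ ≤ ‖T ^ (K + 1) * r * (L₂₂ ^ K)ᴴ‖ * ‖L₁₂ᴴ‖ := norm_mul_le _ _
            _ ≤ (‖T ^ (K + 1) * r‖ * ‖(L₂₂ ^ K)ᴴ‖) * ‖L₁₂ᴴ‖ := by gcongr; exact norm_mul_le _ _
            _ ≤ ((‖T ^ (K + 1)‖ * ‖r‖) * Real.sqrt n) * ‖L₁₂ᴴ‖ := by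
                gcongr
                · exact norm_mul_le _ _
                · exact norm_L22_pow_le hB K
            _ = _ := by ring
        have h0 : Filter.Tendsto (fun K => ‖T ^ (K + 1)‖ * (‖r‖ * Real.sqrt n * ‖L₁₂ᴴ‖))
            Filter.atTop (nhds 0) := by
          have := (hTk.comp (Filter.tendsto_add_atTop_nat 1)).mul_const (‖r‖ * Real.sqrt n * ‖L₁₂ᴴ‖)
          simpa using this
        exact squeeze_zero (fun _ => norm_nonneg _) hb h0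
      have hid : ∀ K, ∑ k ∈ Finset.range (K + 1), G k
          = x - T ^ (K + 1) * r * (L₂₂ ^ K)ᴴ * L₁₂ᴴ := by
        intro K
        rw [eq_sub_iff_add_eq]
        exact (series_identity' hB K).symm
      simp only [hid]
      simpa using tendsto_const_nhds.sub hrem
    exact tendsto_nhds_unique h1 h2
  -- the bound for `ρ < 1`
  have hρb : ∀ ρ : ℝ, 0 ≤ ρ → ρ < 1 → ‖∑' k, ((ρ : ℂ) ^ k) • G k‖ ^ 2 ≤ 4 * fro y := by
    intro ρ hρ0 hρ1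
    have hρn : ‖(ρ : ℂ)‖ ≤ 1 := by
      rw [Complex.norm_real, Real.norm_of_nonneg hρ0]; exact hρ1.le
    have hs : Summable fun k => ((ρ : ℂ) ^ k) • G k := by
      refine Summable.of_norm_bounded hbound fun k => ?_
      rw [norm_smul, norm_pow]
      calc ‖(ρ : ℂ)‖ ^ k * ‖G k‖ ≤ 1 * ‖G k‖ := by
            gcongr; exact pow_le_one₀ (norm_nonneg _) hρn
        _ ≤ _ := by rw [one_mul]; exact hGb k
    have h1 : Filter.Tendsto (fun K => ∑ k ∈ Finset.range (K + 1), ((ρ : ℂ) ^ k) • G k)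
        Filter.atTop (nhds (∑' k, ((ρ : ℂ) ^ k) • G k)) :=
      (hs.hasSum.tendsto_sum_nat).comp (Filter.tendsto_add_atTop_nat 1)
    have h2 := (h1.norm).pow 2
    have hc : Filter.Tendsto (fun K : ℕ => 4 * (1 + (ρ ^ K) ^ 2 / (1 - ρ ^ 2)) * fro y)
        Filter.atTop (nhds (4 * (1 + 0 / (1 - ρ ^ 2)) * fro y)) := by
      have h3 : Filter.Tendsto (fun K : ℕ => (ρ ^ K) ^ 2) Filter.atTop (nhds (0 ^ 2)) :=
        (tendsto_pow_atTop_nhds_zero_of_lt_one hρ0 hρ1).pow 2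
      rw [show (0 : ℝ) ^ 2 = 0 by norm_num] at h3
      exact ((h3.div_const _).const_add 1).const_mul 4 |>.mul_const _
    have hle : ∀ K : ℕ, ‖∑ k ∈ Finset.range (K + 1), ((ρ : ℂ) ^ k) • G k‖ ^ 2
        ≤ 4 * (1 + (ρ ^ K) ^ 2 / (1 - ρ ^ 2)) * fro y := by
      intro K
      have hcnn : 0 ≤ 1 + (ρ ^ K) ^ 2 / (1 - ρ ^ 2) := by
        have : 0 < 1 - ρ ^ 2 := by nlinarith
        positivity
      have := hCB K (fun k => ((ρ : ℂ) ^ k) • Ξ k) _ hcnn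
        (fun ω₀ hω₀ ξ => schur_scaled hB hρ0 hρ1 K ω₀ hω₀ ξ) y
      rw [fro_eq_norm_sq] at this
      convert this using 4 with k
      simp only [G]
      rw [conjTranspose_smul, star_pow, Complex.star_def, Complex.conj_ofReal, Matrix.mul_smul]
    have := le_of_tendsto_of_tendsto' h2 hc hle
    simpa using this
  -- let `ρ → 1`
  have hlim : Filter.Tendsto (fun ρ : ℝ => ∑' k, ((ρ : ℂ) ^ k) • G k) (nhdsWithin 1 (Set.Ico 0 1))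
      (nhds (∑' k, G k)) := by
    refine tendsto_tsum_of_dominated_convergence hbound ?_ ?_
    · intro k
      have h1 : Filter.Tendsto (fun ρ : ℝ => ((ρ : ℂ) ^ k)) (nhds 1) (nhds ((((1 : ℝ) : ℂ)) ^ k)) :=
        ((Complex.continuous_ofReal.tendsto 1).pow k)
      have h2 := ((h1.mono_left (nhdsWithin_le_nhds :
        nhdsWithin (1 : ℝ) (Set.Ico 0 1) ≤ nhds 1)).smul_const (G k))
      rw [Complex.ofReal_one, one_pow, one_smul] at h2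
      exact h2
    · filter_upwards [self_mem_nhdsWithin] with ρ hρ k
      rw [norm_smul, norm_pow, Complex.norm_real, Real.norm_of_nonneg hρ.1]
      calc ρ ^ k * ‖G k‖ ≤ 1 * ‖G k‖ := by
            gcongr; exact pow_le_one₀ hρ.1 hρ.2.le
        _ ≤ _ := by rw [one_mul]; exact hGb k
  have hne : (nhdsWithin (1 : ℝ) (Set.Ico 0 1)).NeBot := by
    have : (1 : ℝ) ∈ closure (Set.Ico (0 : ℝ) 1) := by
      rw [closure_Ico (by norm_num : (0 : ℝ) ≠ 1)]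
      exact ⟨by norm_num, le_rfl⟩
    exact mem_closure_iff_nhdsWithin_neBot.1 this
  have hfin : ‖∑' k, G k‖ ^ 2 ≤ 4 * fro y := by
    refine le_of_tendsto ((hlim.norm).pow 2) ?_
    filter_upwards [self_mem_nhdsWithin] with ρ hρ
    exact hρb ρ hρ.1 hρ.2
  rw [hx, ← fro_eq_norm_sq] at hfin
  exact hfin

end Blocks

/-- Trace form of the dual inequality. -/
theorem dual_trace_le (T : Mat n) (hT : Summable fun k => ‖T ^ k‖) (hCB : CBound T)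
    (X Y R : Mat n) (hX : X.PosSemidef) (hY : Y.PosSemidef) (hR : R.PosSemidef)
    (h : X + R = Y + T * R * Tᴴ) : X.trace.re ≤ 4 * Y.trace.re := by
  obtain ⟨x, rfl⟩ := exists_factor X hX
  obtain ⟨y, rfl⟩ := exists_factor Y hY
  obtain ⟨r, rfl⟩ := exists_factor R hR
  obtain ⟨L₁₁, L₁₂, L₂₁, L₂₂, hB⟩ := exists_lurkBlocks x y r T h
  rw [trace_mul_conjTranspose_re, trace_mul_conjTranspose_re]
  exact fro_le_four hB hT hCB

/-- The degenerate case of the dual inequality. -/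
theorem dual_zero (T : Mat n) (hT : Summable fun k => ‖T ^ k‖) (hCB : CBound T)
    (X Y R : Mat n) (hX : X.PosSemidef) (hY : Y.PosSemidef) (hR : R.PosSemidef)
    (h : X + R = Y + T * R * Tᴴ) (hY0 : Y.trace.re = 0) : X = 0 ∧ Y = 0 ∧ R = 0 := by
  classical
  have hYz : Y = 0 := by
    have htr : Y.trace = 0 := by
      apply Complex.ext hY0
      have := hY.trace_nonneg
      simpa using (Complex.le_def.1 this).2.symm
    exact hY.trace_eq_zero_iff.1 htr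
  have hXle := dual_trace_le T hT hCB X Y R hX hY hR h
  have hXz : X = 0 := by
    have h0 : 0 ≤ X.trace := hX.trace_nonneg
    have htr : X.trace = 0 := by
      apply Complex.ext
      · have := (Complex.le_def.1 h0).1
        simp only [Complex.zero_re] at this ⊢
        linarith
      · simpa using (Complex.le_def.1 h0).2.symm
    exact hX.trace_eq_zero_iff.1 htr
  refine ⟨hXz, hYz, ?_⟩
  rw [hXz, hYz, zero_add, zero_add] at h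
  have hk : ∀ k : ℕ, R = T ^ k * R * (Tᴴ) ^ k := by
    intro k
    induction k with
    | zero => simp
    | succ k ih =>
      conv_lhs => rw [ih, h]
      simp only [pow_succ T k, pow_succ' (Tᴴ) k, Matrix.mul_assoc]
  have hTk : Filter.Tendsto (fun k => ‖T ^ k‖) Filter.atTop (nhds 0) := hT.tendsto_atTop_zero
  have hb : ∀ k, ‖R‖ ≤ ‖T ^ k‖ ^ 2 * ‖R‖ := by
    intro k
    have h1 : ‖(Tᴴ) ^ k‖ = ‖T ^ k‖ := by
      rw [← conjTranspose_pow, norm_conjTranspose_eq]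
    calc ‖R‖ = ‖T ^ k * R * (Tᴴ) ^ k‖ := by rw [← hk k]
      _ ≤ ‖T ^ k * R‖ * ‖(Tᴴ) ^ k‖ := norm_mul_le _ _
      _ ≤ (‖T ^ k‖ * ‖R‖) * ‖T ^ k‖ := by
          rw [h1]; gcongr; exact norm_mul_le _ _
      _ = _ := by ring
  have h0 : Filter.Tendsto (fun k => ‖T ^ k‖ ^ 2 * ‖R‖) Filter.atTop (nhds 0) := by
    have := (hTk.pow 2).mul_const ‖R‖
    simpa using this
  have : ‖R‖ ≤ 0 := ge_of_tendsto' h0 hb
  exact norm_le_zero_iff.1 this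

end Crest.Agent.CrouzeixMetric
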