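import Crest.Agent.CrouzeixMetric.Spectral
import Mathlib

set_option autoImplicit false

open scoped ComplexOrder
open Matrix Crest.AnalysisR.NumRange Polynomial Topology

namespace Crest.Agent.CrouzeixMetric

/-- Dividing an analytic function by the linear factors of a multiset of zeros, counted with
multiplicity. -/
lemma exists_quotient {Ω : Set ℂ} (hΩ : IsOpen Ω) (s : Multiset ℂ) :
    ∀ (g : ℂ → ℂ), DifferentiableOn ℂ g Ω → (∀ μ ∈ s, μ ∈ Ω) →
      (∀ μ ∈ s, ((s.count μ : ℕ) : ℕ∞) ≤ analyticOrderAt g μ) →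
      ∃ h : ℂ → ℂ, DifferentiableOn ℂ h Ω ∧
        ∀ z ∈ Ω, g z = (s.map fun r => z - r).prod * h z := by
  classical
  induction s using Multiset.induction_on with
  | empty =>
    intro g hg _ _
    exact ⟨g, hg, fun z _ => by simp⟩
  | cons a s ih =>
    intro g hg hs hord
    have haΩ : a ∈ Ω := hs a (Multiset.mem_cons_self a s)
    have hnhds : Ω ∈ 𝓝 a := hΩ.mem_nhds haΩ
    have hga : AnalyticAt ℂ g a := hg.analyticAt hnhds
    have h1 : ((1 : ℕ) : ℕ∞) ≤ analyticOrderAt g a := by
      refine le_trans ?_ (hord a (Multiset.mem_cons_self a s))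
      have : 1 ≤ (a ::ₘ s).count a := by
        rw [Multiset.count_cons_self]; omega
      exact_mod_cast this
    have hg0 : g a = 0 := by
      have h2 : analyticOrderAt g a ≠ 0 := by
        intro h0
        rw [h0] at h1
        simp at h1
      exact hga.analyticOrderAt_ne_zero.1 h2
    set g₁ := dslope g a with hg₁
    have hg₁d : DifferentiableOn ℂ g₁ Ω := (Complex.differentiableOn_dslope hnhds).2 hg
    have hfac : ∀ z, g z = (z - a) * g₁ z := by
      intro z
      have := sub_smul_dslope g a z
      rw [hg0, sub_zero, smul_eq_mul] at this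
      exact this.symm
    have hordg₁ : ∀ μ ∈ s, ((s.count μ : ℕ) : ℕ∞) ≤ analyticOrderAt g₁ μ := by
      intro μ hμ
      have hμΩ : μ ∈ Ω := hs μ (Multiset.mem_cons_of_mem hμ)
      have hμn : Ω ∈ 𝓝 μ := hΩ.mem_nhds hμΩ
      have hanl : AnalyticAt ℂ (fun z => z - a) μ := by fun_prop
      have hang : AnalyticAt ℂ g₁ μ := hg₁d.analyticAt hμn
      have heq : g = (fun z => z - a) * g₁ := funext hfac
      have hmul : analyticOrderAt g μ
          = analyticOrderAt (fun z => z - a) μ + analyticOrderAt g₁ μ := by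
        rw [heq, analyticOrderAt_mul hanl hang]
      have hc := hord μ (Multiset.mem_cons_of_mem hμ)
      by_cases hμa : μ = a
      · subst hμa
        have h3 : analyticOrderAt (fun z => z - μ) μ = 1 := by
          have := (hanl.analyticOrderAt_eq_natCast (n := 1)).2
            ⟨fun _ => 1, analyticAt_const, by simp, by simp⟩
          simpa using this
        rw [hmul, h3, Multiset.count_cons_self] at hc
        have h4 : ((s.count μ + 1 : ℕ) : ℕ∞) = 1 + (s.count μ : ℕ∞) := by
          push_cast; rw [add_comm]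
        rw [h4] at hc
        exact (ENat.add_le_add_iff_left (by simp)).1 hc
      · have h3 : analyticOrderAt (fun z => z - a) μ = 0 := by
          rw [hanl.analyticOrderAt_eq_zero]
          exact sub_ne_zero.2 hμa
        rw [hmul, h3, zero_add, Multiset.count_cons_of_ne hμa] at hc
        exact hc
    obtain ⟨h, hh, hhq⟩ := ih g₁ hg₁d (fun μ hμ => hs μ (Multiset.mem_cons_of_mem hμ)) hordg₁
    refine ⟨h, hh, fun z hz => ?_⟩
    rw [hfac z, hhq z hz, Multiset.map_cons, Multiset.prod_cons, mul_assoc]

variable {n : ℕ}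

/-- `(f - p) / χ_A` is analytic when `p` agrees with `f` to order `n` on the spectrum. -/
theorem exists_charpoly_quotient (A : Mat n) {Ω : Set ℂ} (hΩ : IsOpen Ω) {f : ℂ → ℂ}
    (hf : DifferentiableOn ℂ f Ω) (hA : numRange A ⊆ Ω) {p : ℂ[X]} (hp : AgreesOnSpectrum A f p) :
    ∃ h : ℂ → ℂ, DifferentiableOn ℂ h Ω ∧
      ∀ z ∈ Ω, f z - p.eval z = A.charpoly.eval z * h z := by
  classical
  set χ := A.charpoly with hχ
  have hmonic : χ.Monic := Matrix.charpoly_monic A
  have hroots : Multiset.card χ.roots = χ.natDegree :=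
    (IsAlgClosed.splits χ).natDegree_eq_card_roots.symm
  have hprod : (χ.roots.map fun a => X - C a).prod = χ :=
    Polynomial.prod_multiset_X_sub_C_of_monic_of_roots_card_eq hmonic hroots
  have hdeg : χ.natDegree = n := by
    rw [hχ, Matrix.charpoly_natDegree_eq_dim]; simp
  have hspec : ∀ μ ∈ χ.roots, μ ∈ spectrum ℂ A := by
    intro μ hμ
    have h0 : χ.IsRoot μ := (Polynomial.mem_roots hmonic.ne_zero).1 hμ
    exact Matrix.mem_spectrum_iff_isRoot_charpoly.2 h0
  set g : ℂ → ℂ := fun z => f z - p.eval z with hg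
  have hgd : DifferentiableOn ℂ g Ω := hf.sub (p.differentiable.differentiableOn)
  have hord : ∀ μ ∈ χ.roots, ((χ.roots.count μ : ℕ) : ℕ∞) ≤ analyticOrderAt g μ := by
    intro μ hμ
    have hμs := hspec μ hμ
    have hμΩ : μ ∈ Ω := hA (spectrum_subset_numRange A hμs)
    have hnhds := hΩ.mem_nhds hμΩ
    have hfa : AnalyticAt ℂ f μ := hf.analyticAt hnhds
    have hpa : AnalyticAt ℂ (fun z => p.eval z) μ :=
      p.differentiable.differentiableOn.analyticAt Filter.univ_mem
    have hga : AnalyticAt ℂ g μ := hfa.sub hpa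
    have h1 : (n : ℕ∞) ≤ analyticOrderAt g μ := by
      rw [natCast_le_analyticOrderAt_iff_iteratedDeriv_eq_zero hga]
      intro i hi
      have h2 := hp μ hμs i hi
      have h3 : iteratedDeriv i g μ
          = iteratedDeriv i f μ - iteratedDeriv i (fun z => p.eval z) μ :=
        iteratedDeriv_fun_sub hfa.contDiffAt hpa.contDiffAt
      rw [h3, h2, sub_self]
    refine le_trans ?_ h1
    have h4 : χ.roots.count μ ≤ n := by
      calc χ.roots.count μ ≤ Multiset.card χ.roots := Multiset.count_le_card _ _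
        _ = n := by rw [hroots, hdeg]
    exact_mod_cast h4
  obtain ⟨h, hh, hq⟩ := exists_quotient hΩ χ.roots g hgd
    (fun μ hμ => hA (spectrum_subset_numRange A (hspec μ hμ))) hord
  refine ⟨h, hh, fun z hz => ?_⟩
  have h5 : χ.eval z = (χ.roots.map fun r => z - r).prod := by
    conv_lhs => rw [← hprod]
    rw [Polynomial.eval_multiset_prod, Multiset.map_map]
    simp
  rw [h5]
  exact hq z hz

end Crest.Agent.CrouzeixMetric
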