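import Mathlib

set_option autoImplicit false

open scoped ComplexOrder
open Matrix

namespace Crest.Agent.CrouzeixMetric

variable {ι κ : Type*} [Fintype ι] [Fintype κ] [DecidableEq ι] [DecidableEq κ]

/-- Square of the Euclidean norm of a coordinate vector. -/
noncomputable def qn (v : ι → ℂ) : ℝ := ∑ i, ‖v i‖ ^ 2

omit [DecidableEq ι] in
lemma qn_eq_norm_sq (v : ι → ℂ) : qn v = ‖(WithLp.toLp 2 v : EuclideanSpace ℂ ι)‖ ^ 2 := by
  rw [EuclideanSpace.norm_sq_eq]; rfl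

omit [DecidableEq ι] in
lemma qn_nonneg (v : ι → ℂ) : 0 ≤ qn v := Finset.sum_nonneg fun _ _ => by positivity

omit [DecidableEq κ] [DecidableEq ι] in
lemma qn_mulVec_eq (a : Matrix ι κ ℂ) (v : κ → ℂ) :
    ((qn (a *ᵥ v) : ℝ) : ℂ) = star v ⬝ᵥ ((aᴴ * a) *ᵥ v) := by
  have h1 : star v ⬝ᵥ ((aᴴ * a) *ᵥ v) = star (a *ᵥ v) ⬝ᵥ (a *ᵥ v) := by
    rw [Matrix.star_mulVec, ← Matrix.mulVec_mulVec, Matrix.dotProduct_mulVec]
  rw [h1]
  simp only [qn, dotProduct, Pi.star_apply]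
  push_cast
  refine Finset.sum_congr rfl fun i _ => ?_
  rw [← Complex.conj_mul']
  rfl

/-- The lurking isometry: if `aᴴ a = bᴴ b` there is a norm-preserving `L` with `L a = b`. -/
theorem lurking (a b : Matrix ι κ ℂ) (h : aᴴ * a = bᴴ * b) :
    ∃ L : Matrix ι ι ℂ, L * a = b ∧ ∀ v : ι → ℂ, qn (L *ᵥ v) = qn v := by
  classical
  let A : EuclideanSpace ℂ κ →ₗ[ℂ] EuclideanSpace ℂ ι := Matrix.toEuclideanLin a
  let B : EuclideanSpace ℂ κ →ₗ[ℂ] EuclideanSpace ℂ ι := Matrix.toEuclideanLin b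
  have hA : ∀ v, A v = WithLp.toLp 2 (a *ᵥ (WithLp.ofLp v)) := fun v => rfl
  have hB : ∀ v, B v = WithLp.toLp 2 (b *ᵥ (WithLp.ofLp v)) := fun v => rfl
  have hnorm : ∀ v, ‖A v‖ = ‖B v‖ := by
    intro v
    have h1 : qn (a *ᵥ (WithLp.ofLp v)) = qn (b *ᵥ (WithLp.ofLp v)) := by
      have : ((qn (a *ᵥ (WithLp.ofLp v)) : ℝ) : ℂ) = ((qn (b *ᵥ (WithLp.ofLp v)) : ℝ) : ℂ) := by
        rw [qn_mulVec_eq, qn_mulVec_eq, h]
      exact_mod_cast this
    rw [qn_eq_norm_sq, qn_eq_norm_sq, ← hA, ← hB] at h1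
    exact (sq_eq_sq₀ (norm_nonneg _) (norm_nonneg _)).1 h1
  obtain ⟨g, hg⟩ := LinearMap.exists_rightInverse_of_surjective A.rangeRestrict
    (LinearMap.range_rangeRestrict A)
  have hgA : ∀ s : LinearMap.range A, A (g s) = s := by
    intro s
    have := congrArg (fun F => (F s : LinearMap.range A)) hg
    simpa using congrArg Subtype.val this
  let L0 : LinearMap.range A →ₗᵢ[ℂ] EuclideanSpace ℂ ι :=
    { toLinearMap := B ∘ₗ g
      norm_map' := by
        intro s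
        change ‖B (g s)‖ = ‖s‖
        rw [← hnorm, hgA]; rfl }
  let L1 : EuclideanSpace ℂ ι →ₗᵢ[ℂ] EuclideanSpace ℂ ι := L0.extend
  have hL1 : ∀ v, L1 (A v) = B v := by
    intro v
    have h1 : L1 (A v) = L0 ⟨A v, LinearMap.mem_range_self A v⟩ :=
      LinearIsometry.extend_apply L0 ⟨A v, LinearMap.mem_range_self A v⟩
    rw [h1]
    change B (g ⟨A v, _⟩) = B v
    have h2 : A (g ⟨A v, LinearMap.mem_range_self A v⟩ - v) = 0 := by
      rw [map_sub, hgA]; simp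
    have h3 : B (g ⟨A v, LinearMap.mem_range_self A v⟩ - v) = 0 := by
      have := hnorm (g ⟨A v, LinearMap.mem_range_self A v⟩ - v)
      rw [h2, norm_zero] at this
      exact norm_eq_zero.1 this.symm
    rw [map_sub, sub_eq_zero] at h3
    exact h3
  let L : Matrix ι ι ℂ := (Matrix.toEuclideanLin (m := ι) (n := ι) (𝕜 := ℂ)).symm L1.toLinearMap
  have hL : ∀ v : ι → ℂ, WithLp.toLp 2 (L *ᵥ v) = L1 (WithLp.toLp 2 v) := by
    intro v
    have : Matrix.toEuclideanLin L = L1.toLinearMap := by simp [L]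
    have h2 := congrArg (fun F => F (WithLp.toLp 2 v)) this
    simpa [Matrix.toEuclideanLin_toLp] using h2
  refine ⟨L, ?_, ?_⟩
  · -- matrix identity, tested on basis vectors
    apply Matrix.ext_of_mulVec_single
    intro j
    set v : κ → ℂ := Pi.single j 1
    have h1 := hL1 (WithLp.toLp 2 v)
    rw [hA, hB] at h1
    have h2 := hL (a *ᵥ v)
    change WithLp.toLp 2 (L *ᵥ (a *ᵥ v)) = L1 (WithLp.toLp 2 (a *ᵥ v)) at h2
    rw [← Matrix.mulVec_mulVec]
    have h3 : WithLp.toLp 2 (L *ᵥ (a *ᵥ v)) = WithLp.toLp 2 (b *ᵥ v) := by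
      rw [h2]; exact h1
    exact (WithLp.toLp_injective 2) h3
  · intro v
    rw [qn_eq_norm_sq, qn_eq_norm_sq, hL, L1.norm_map]

end Crest.Agent.CrouzeixMetric
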