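import Crest.Agent.CrouzeixMetric.Bridge
import Crest.Agent.CrouzeixMetric.Factor
import Crest.Agent.Crouzeix.Runge
import Crest.Agent.Crouzeix.ToeplitzHausdorff

set_option autoImplicit false

open scoped ComplexOrder
open Matrix Crest.AnalysisR.NumRange Polynomial Topology

namespace Crest.Agent.CrouzeixMetric

attribute [local instance] Matrix.frobeniusNormedAddCommGroup Matrix.frobeniusNormedSpace
  Matrix.frobeniusNormedRing Matrix.frobeniusNormedAlgebra

variable {n : ℕ}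

lemma isCompact_numRange (A : Mat n) : IsCompact (numRange A) := by
  have h : numRange A = (fun x : EuclideanSpace ℂ (Fin n) =>
      (inner ℂ x (Matrix.toEuclideanCLM (n := Fin n) (𝕜 := ℂ) A x) : ℂ)) ''
      Metric.sphere (0 : EuclideanSpace ℂ (Fin n)) 1 := by
    ext z
    constructor
    · rintro ⟨x, hx, rfl⟩
      exact ⟨x, by simpa using hx, rfl⟩
    · rintro ⟨x, hx, rfl⟩
      exact ⟨x, by simpa using hx, rfl⟩
  rw [h]
  refine (isCompact_sphere _ _).image ?_
  exact continuous_id.inner (Matrix.toEuclideanCLM (n := Fin n) (𝕜 := ℂ) A).continuous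

lemma convex_numRange (A : Mat n) : Convex ℝ (numRange A) := by
  have h : numRange A = Crest.Agent.Crouzeix.numRangeSet
      (Matrix.toEuclideanCLM (n := Fin n) (𝕜 := ℂ) A) := by
    ext z
    simp only [numRange, Crest.Agent.Crouzeix.numRangeSet, Set.mem_ofPred_eq]
    constructor
    · rintro ⟨x, hx, rfl⟩; exact ⟨x, hx, rfl⟩
    · rintro ⟨x, hx, rfl⟩; exact ⟨x, hx, rfl⟩
  rw [h]
  exact Crest.Agent.Crouzeix.convex_numRangeSet _

/-- The approximating polynomials: `q(A) = p(A)` exactly and `|q| ≤ 1 + δ` on the numerical range. -/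
theorem exists_approx (A : Mat n) {Ω : Set ℂ} (hΩ : IsOpen Ω) (hΩc : Convex ℝ Ω) {f : ℂ → ℂ}
    (hf : DifferentiableOn ℂ f Ω) (hfb : f '' Ω ⊆ Metric.ball 0 1) (hA : numRange A ⊆ Ω) {p : ℂ[X]}
    (hp : AgreesOnSpectrum A f p) (δ : ℝ) (hδ : 0 < δ) :
    ∃ q : ℂ[X], aeval A q = aeval A p ∧ ∀ z ∈ numRange A, ‖q.eval z‖ ≤ 1 + δ := by
  obtain ⟨h, hh, hq⟩ := exists_charpoly_quotient A hΩ hf hA hp
  set K := numRange A with hK
  have hKc : IsCompact K := isCompact_numRange A
  have hKv : Convex ℝ K := convex_numRange A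
  have hKΩ : K ⊆ Ω := hA
  obtain ⟨C, hC⟩ := hKc.exists_bound_of_continuousOn
    (f := fun z => A.charpoly.eval z) (Polynomial.continuous _).continuousOn
  have hC1 : 0 < |C| + 1 := by positivity
  obtain ⟨s, hs⟩ := Crest.Agent.Crouzeix.runge_convex hKc hKv hΩ hKΩ hh (δ / (|C| + 1)) (by positivity)
  refine ⟨p + A.charpoly * s, ?_, ?_⟩
  · rw [map_add, map_mul, Matrix.aeval_self_charpoly, zero_mul, add_zero]
  · intro z hz
    have hzK : z ∈ K := hz
    have hzΩ : z ∈ Ω := hA hz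
    have h1 : (p + A.charpoly * s).eval z
        = f z + A.charpoly.eval z * (s.eval z - h z) := by
      have := hq z hzΩ
      rw [eval_add, eval_mul]
      linear_combination (-1 : ℂ) * this
    rw [h1]
    have h2 : ‖f z‖ < 1 := by
      have : f z ∈ Metric.ball (0 : ℂ) 1 := hfb ⟨z, hzΩ, rfl⟩
      simpa using this
    have h3 : ‖A.charpoly.eval z * (s.eval z - h z)‖ ≤ δ := by
      rw [norm_mul]
      have h4 := hs z hzK
      have h5 := hC z hzK
      calc ‖A.charpoly.eval z‖ * ‖s.eval z - h z‖ ≤ (|C| + 1) * (δ / (|C| + 1)) := by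
            refine mul_le_mul ?_ h4 (norm_nonneg _) hC1.le
            linarith [le_abs_self C]
        _ = δ := by field_simp
    calc ‖f z + A.charpoly.eval z * (s.eval z - h z)‖ ≤ ‖f z‖ + ‖A.charpoly.eval z * (s.eval z - h z)‖ :=
          norm_add_le _ _
      _ ≤ 1 + δ := by linarith

/-- S0180, given S0179. -/
theorem main (hS : S0179Spec n) (hn : 1 ≤ n) (A : Mat n) {Ω : Set ℂ} (hΩ : IsOpen Ω)
    (hΩc : Convex ℝ Ω) {f : ℂ → ℂ} (hf : DifferentiableOn ℂ f Ω) (hfb : f '' Ω ⊆ Metric.ball 0 1)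
    (hA : numRange A ⊆ Ω) {p : ℂ[X]} (hp : AgreesOnSpectrum A f p) :
    (∃ (H : Mat n) (τ : ℝ), MetricStrictlyFeasible (aeval A p) H τ) ∧
    ∃ (H : Mat n) (κsq : ℝ), IsOptimalMetric (aeval A p) H κsq ∧ 1 ≤ κsq ∧ κsq ≤ 4 := by
  have hT : Summable fun k => ‖(aeval A p) ^ k‖ :=
    summable_pow_of_spectrum hn _ (spectrum_aeval_lt_one hn A hfb hA hp)
  have hCB : CBound (aeval A p) := cBound_of_approx hS A _
    (fun δ hδ => exists_approx A hΩ hΩc hf hfb hA hp δ hδ)
  exact metric_conclusion hn _ hT hCB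

end Crest.Agent.CrouzeixMetric
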