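import Crest.Agent.CrouzeixMetric.Separation

set_option autoImplicit false

open scoped ComplexOrder
open Matrix Crest.AnalysisR.NumRange

namespace Crest.Agent.CrouzeixMetric

attribute [local instance] Matrix.frobeniusNormedAddCommGroup Matrix.frobeniusNormedSpace
  Matrix.frobeniusNormedRing Matrix.frobeniusNormedAlgebra

variable {n : ℕ}

/-- The rank-one matrix `x xᴴ`. -/
noncomputable def rk1 (x : Fin n → ℂ) : Mat n := vecMulVec x (star x)

lemma rk1_posSemidef (x : Fin n → ℂ) : (rk1 x).PosSemidef := posSemidef_vecMulVec_self_star x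

lemma trace_mul_rk1 (Z : Mat n) (x : Fin n → ℂ) :
    (Z * rk1 x).trace = star x ⬝ᵥ (Z *ᵥ x) := by
  simp only [rk1, Matrix.trace, Matrix.diag_apply, Matrix.mul_apply, vecMulVec_apply, dotProduct,
    Matrix.mulVec, Pi.star_apply, Finset.mul_sum]
  refine Finset.sum_congr rfl fun i _ => Finset.sum_congr rfl fun j _ => ?_
  ring

lemma trace_rk1_re (x : Fin n → ℂ) : (rk1 x).trace.re = qn x := by
  have h := trace_mul_rk1 (1 : Mat n) x
  rw [Matrix.one_mul, Matrix.one_mulVec] at h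
  rw [h]
  simp only [qn, dotProduct, Pi.star_apply, Complex.re_sum]
  refine Finset.sum_congr rfl fun i _ => ?_
  rw [mul_comm, Complex.star_def, Complex.mul_conj']
  norm_cast

lemma qn_pos_of_ne {x : Fin n → ℂ} (hx : x ≠ 0) : 0 < qn x := by
  obtain ⟨i, hi⟩ := Function.ne_iff.1 hx
  have h1 : 0 < ‖x i‖ ^ 2 := by
    have : ‖x i‖ ≠ 0 := by simpa using hi
    positivity
  refine lt_of_lt_of_le h1 ?_
  exact Finset.single_le_sum (f := fun i => ‖x i‖ ^ 2) (fun _ _ => by positivity) (Finset.mem_univ i)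

lemma posDef_of_re_pos (M : Mat n) (hM : M.IsHermitian)
    (h : ∀ x : Fin n → ℂ, x ≠ 0 → 0 < (star x ⬝ᵥ (M *ᵥ x)).re) : M.PosDef := by
  refine PosDef.of_dotProduct_mulVec_pos hM fun x hx => ?_
  rw [Complex.lt_def]
  refine ⟨h x hx, ?_⟩
  simpa using (hM.im_star_dotProduct_mulVec_self x).symm

/-- From the separating functional to a strictly feasible metric. -/
lemma strict_of_core (hn : 1 ≤ n) (T : Mat n) (τ : ℝ) (Z : Mat n) (w : ℝ)
    (hZ : Z.IsHermitian) (hw : 0 ≤ w)
    (hcore : ∀ X Y R : Mat n, X.PosSemidef → Y.PosSemidef → R.PosSemidef →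
        X.trace.re + Y.trace.re + R.trace.re = 1 →
        0 < (Z * (X - Y + R - T * R * Tᴴ)).trace.re + w * (τ * Y.trace.re - X.trace.re)) :
    ∃ H : Mat n, MetricStrictlyFeasible T H τ := by
  classical
  set Q : (Fin n → ℂ) → ℝ := fun x => (star x ⬝ᵥ (Z *ᵥ x)).re with hQ
  -- scaling
  have hsc : ∀ (x : Fin n → ℂ), x ≠ 0 →
      (((qn x)⁻¹ : ℝ) • rk1 x : Mat n).PosSemidef ∧ ((((qn x)⁻¹ : ℝ) • rk1 x : Mat n)).trace.re = 1 := by
    intro x hx
    have h0 := qn_pos_of_ne hx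
    refine ⟨(rk1_posSemidef x).smul (inv_nonneg.2 h0.le), ?_⟩
    rw [Matrix.trace_smul, Complex.real_smul, Complex.re_ofReal_mul, trace_rk1_re]
    exact inv_mul_cancel₀ h0.ne'
  have hZ0 : ∀ (c : ℝ) (M : Mat n), (Z * (c • M)).trace.re = c * (Z * M).trace.re := by
    intro c M
    rw [Matrix.mul_smul, Matrix.trace_smul, Complex.real_smul, Complex.re_ofReal_mul]
  have hA : ∀ x : Fin n → ℂ, x ≠ 0 → w * qn x < Q x := by
    intro x hx
    have h0 := qn_pos_of_ne hx
    obtain ⟨p1, p2⟩ := hsc x hx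
    have := hcore _ 0 0 p1 PosSemidef.zero PosSemidef.zero (by simpa using p2)
    have e1 : ((qn x)⁻¹ • rk1 x - (0 : Mat n) + 0 - T * 0 * Tᴴ) = (qn x)⁻¹ • rk1 x := by simp
    rw [e1, hZ0, trace_mul_rk1, p2] at this
    simp only [Matrix.trace_zero, Complex.zero_re, mul_zero, zero_sub, mul_neg, mul_one] at this
    have h2 : 0 < (qn x)⁻¹ * (Q x - w * qn x) := by
      have h3 : (qn x)⁻¹ * (Q x - w * qn x) = (qn x)⁻¹ * Q x - w := by
        field_simp
      rw [h3]; linarith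
    have := (pos_iff_pos_of_mul_pos h2).1 (inv_pos.2 h0)
    linarith
  have hB : ∀ x : Fin n → ℂ, x ≠ 0 → Q x < w * τ * qn x := by
    intro x hx
    have h0 := qn_pos_of_ne hx
    obtain ⟨p1, p2⟩ := hsc x hx
    have := hcore 0 _ 0 PosSemidef.zero p1 PosSemidef.zero (by simpa using p2)
    have e1 : ((0 : Mat n) - (qn x)⁻¹ • rk1 x + 0 - T * 0 * Tᴴ) = (-(qn x)⁻¹ : ℝ) • rk1 x := by
      simp [neg_smul]
    rw [e1, hZ0, trace_mul_rk1, p2] at this
    simp only [Matrix.trace_zero, Complex.zero_re, sub_zero, mul_one] at this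
    have h2 : 0 < (qn x)⁻¹ * (w * τ * qn x - Q x) := by
      have h3 : (qn x)⁻¹ * (w * τ * qn x - Q x) = -(qn x)⁻¹ * Q x + w * τ := by
        field_simp
        ring
      rw [h3]; exact this
    have := (pos_iff_pos_of_mul_pos h2).1 (inv_pos.2 h0)
    linarith
  have hC : ∀ x : Fin n → ℂ, x ≠ 0 → 0 < (star x ⬝ᵥ ((Z - Tᴴ * Z * T) *ᵥ x)).re := by
    intro x hx
    have h0 := qn_pos_of_ne hx
    obtain ⟨p1, p2⟩ := hsc x hx
    have := hcore 0 0 _ PosSemidef.zero PosSemidef.zero p1 (by simpa using p2)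
    have e1 : ((0 : Mat n) - 0 + (qn x)⁻¹ • rk1 x - T * ((qn x)⁻¹ • rk1 x) * Tᴴ)
        = (qn x)⁻¹ • (rk1 x - T * rk1 x * Tᴴ) := by
      simp [Matrix.mul_smul, Matrix.smul_mul, smul_sub]
    rw [e1, hZ0] at this
    simp only [Matrix.trace_zero, Complex.zero_re, mul_zero, sub_zero, add_zero] at this
    have h2 := (pos_iff_pos_of_mul_pos this).1 (inv_pos.2 h0)
    have e2 : (Z * (rk1 x - T * rk1 x * Tᴴ)).trace = ((Z - Tᴴ * Z * T) * rk1 x).trace := by
      rw [Matrix.mul_sub, Matrix.sub_mul, Matrix.trace_sub, Matrix.trace_sub]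
      congr 1
      rw [← Matrix.mul_assoc, Matrix.trace_mul_comm, Matrix.mul_assoc, Matrix.mul_assoc]
    rw [e2, trace_mul_rk1] at h2
    exact h2
  -- a non-zero vector exists
  have hne : ∃ x : Fin n → ℂ, x ≠ 0 := by
    refine ⟨fun _ => 1, fun h => ?_⟩
    have := congrFun h ⟨0, hn⟩
    simp at this
  obtain ⟨x₀, hx₀⟩ := hne
  have hwpos : 0 < w := by
    rcases hw.lt_or_eq with h | h
    · exact h
    · exfalso
      have h1 := hA x₀ hx₀
      have h2 := hB x₀ hx₀
      rw [← h] at h1 h2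
      simp only [zero_mul] at h1 h2
      linarith
  refine ⟨(w⁻¹ : ℝ) • Z, ?_, ?_, ?_⟩
  · refine posDef_of_re_pos _ ?_ ?_
    · exact (hZ.smul (IsSelfAdjoint.all _)).sub isHermitian_one
    · intro x hx
      have h1 := hA x hx
      rw [Matrix.sub_mulVec, dotProduct_sub, Matrix.smul_mulVec, Matrix.one_mulVec,
        dotProduct_smul, Complex.sub_re, Complex.real_smul, Complex.re_ofReal_mul]
      have h2 : (star x ⬝ᵥ x).re = qn x := by
        have := trace_mul_rk1 (1 : Mat n) x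
        rw [Matrix.one_mul, Matrix.one_mulVec] at this
        rw [← this, trace_rk1_re]
      rw [h2]
      have h3 : w⁻¹ * (w * qn x) < w⁻¹ * Q x := mul_lt_mul_of_pos_left h1 (inv_pos.2 hwpos)
      rw [inv_mul_cancel_left₀ hwpos.ne'] at h3
      simp only [hQ] at h3
      linarith
  · refine posDef_of_re_pos _ ?_ ?_
    · refine IsHermitian.sub ?_ (hZ.smul (IsSelfAdjoint.all _))
      simp [Matrix.IsHermitian, conjTranspose_smul]
    · intro x hx
      have h1 := hB x hx
      rw [Matrix.sub_mulVec, dotProduct_sub, Matrix.smul_mulVec, Matrix.smul_mulVec,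
        Matrix.one_mulVec, dotProduct_smul, dotProduct_smul, Complex.sub_re, Complex.real_smul,
        Complex.re_ofReal_mul, smul_eq_mul, Complex.re_ofReal_mul]
      have h2 : (star x ⬝ᵥ x).re = qn x := by
        have := trace_mul_rk1 (1 : Mat n) x
        rw [Matrix.one_mul, Matrix.one_mulVec] at this
        rw [← this, trace_rk1_re]
      rw [h2]
      have h3 : w⁻¹ * Q x < w⁻¹ * (w * τ * qn x) := mul_lt_mul_of_pos_left h1 (inv_pos.2 hwpos)
      have h4 : w⁻¹ * (w * τ * qn x) = τ * qn x := by field_simp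
      rw [h4] at h3
      simp only [hQ] at h3
      linarith
  · refine posDef_of_re_pos _ ?_ ?_
    · refine (hZ.smul (IsSelfAdjoint.all _)).sub ?_
      simp only [Matrix.IsHermitian, conjTranspose_mul, conjTranspose_conjTranspose,
        conjTranspose_smul, star_trivial]
      simp [Matrix.mul_assoc, hZ.eq]
    · intro x hx
      have h1 := hC x hx
      have e : (w⁻¹ : ℝ) • Z - Tᴴ * ((w⁻¹ : ℝ) • Z) * T = (w⁻¹ : ℝ) • (Z - Tᴴ * Z * T) := by
        simp [Matrix.mul_smul, Matrix.smul_mul, smul_sub]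
      rw [e, Matrix.smul_mulVec, dotProduct_smul, Complex.real_smul, Complex.re_ofReal_mul]
      exact mul_pos (inv_pos.2 hwpos) h1

/-- Feasibility of the metric problem for every `τ > 4`. -/
theorem exists_strict (hn : 1 ≤ n) (T : Mat n) (hT : Summable fun k => ‖T ^ k‖) (hCB : CBound T)
    (τ : ℝ) (hτ : 4 < τ) : ∃ H : Mat n, MetricStrictlyFeasible T H τ := by
  have hdual : ∀ X Y R : Mat n, X.PosSemidef → Y.PosSemidef → R.PosSemidef →
      X + R = Y + T * R * Tᴴ → (X = 0 ∧ Y = 0 ∧ R = 0) ∨ X.trace.re < τ * Y.trace.re := by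
    intro X Y R hX hY hR h
    by_cases hY0 : Y.trace.re = 0
    · exact Or.inl (dual_zero T hT hCB X Y R hX hY hR h hY0)
    · right
      have h1 := dual_trace_le T hT hCB X Y R hX hY hR h
      have h2 : 0 < Y.trace.re := lt_of_le_of_ne (trace_re_nonneg hY) (Ne.symm hY0)
      nlinarith
  obtain ⟨Z, w, hZ, hw, hcore⟩ := sep_core T τ hdual
  exact strict_of_core hn T τ Z w hZ hw hcore

lemma feasible_of_strict {T H : Mat n} {τ : ℝ} (h : MetricStrictlyFeasible T H τ) :
    MetricFeasible T H τ := ⟨h.1.posSemidef, h.2.1.posSemidef, h.2.2.posSemidef⟩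

/-- Basic consequences of feasibility: `τ ≥ 1` and a bound on `H`. -/
lemma one_le_of_feasible (hn : 1 ≤ n) {T H : Mat n} {τ : ℝ} (h : MetricFeasible T H τ) : 1 ≤ τ := by
  classical
  obtain ⟨h1, h2, -⟩ := h
  have hsum := h1.add h2
  have e : H - 1 + ((τ : ℂ) • (1 : Mat n) - H) = ((τ - 1 : ℝ) : ℂ) • (1 : Mat n) := by
    push_cast
    rw [sub_smul, one_smul]
    abel
  rw [e] at hsum
  have := hsum.diag_nonneg (i := (⟨0, hn⟩ : Fin n))
  simp only [Matrix.diag_apply, Matrix.smul_apply, Matrix.one_apply_eq, smul_eq_mul, mul_one] at this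
  have h3 := (Complex.le_def.1 this).1
  simp only [Complex.zero_re, Complex.ofReal_re] at h3
  linarith

lemma posSemidef_of_feasible {T H : Mat n} {τ : ℝ} (h : MetricFeasible T H τ) : H.PosSemidef := by
  have h2 : (H - 1 + 1).PosSemidef := h.1.add PosSemidef.one
  simpa using h2

lemma trace_le_of_feasible {T H : Mat n} {τ : ℝ} (h : MetricFeasible T H τ) :
    H.trace.re ≤ n * τ := by
  have h1 := trace_re_nonneg h.2.1
  rw [Matrix.trace_sub, Complex.sub_re, Matrix.trace_smul, Matrix.trace_one] at h1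
  simp only [Fintype.card_fin, smul_eq_mul, Complex.mul_re, Complex.ofReal_re, Complex.natCast_re,
    Complex.ofReal_im, Complex.natCast_im, mul_zero, sub_zero] at h1
  linarith

lemma isClosed_feasible (T : Mat n) : IsClosed {p : Mat n × ℝ | MetricFeasible T p.1 p.2} := by
  have h : {p : Mat n × ℝ | MetricFeasible T p.1 p.2} =
      ((fun p : Mat n × ℝ => p.1 - 1) ⁻¹' {X : Mat n | X.PosSemidef}) ∩
      ((fun p : Mat n × ℝ => ((p.2 : ℂ) • (1 : Mat n) - p.1)) ⁻¹' {X : Mat n | X.PosSemidef}) ∩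
      ((fun p : Mat n × ℝ => p.1 - Tᴴ * p.1 * T) ⁻¹' {X : Mat n | X.PosSemidef}) := by
    ext p
    simp [MetricFeasible, and_assoc]
  rw [h]
  refine IsClosed.inter (IsClosed.inter ?_ ?_) ?_
  · exact isClosed_posSemidef.preimage (continuous_fst.sub continuous_const)
  · exact isClosed_posSemidef.preimage
      (((Complex.continuous_ofReal.comp continuous_snd).smul continuous_const).sub continuous_fst)
  · exact isClosed_posSemidef.preimage
      (continuous_fst.sub ((continuous_const.matrix_mul continuous_fst).matrix_mul continuous_const))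

/-- The optimum of the metric problem is attained. -/
theorem exists_optimal (hn : 1 ≤ n) (T : Mat n) {H₀ : Mat n} {τ₀ : ℝ}
    (h₀ : MetricFeasible T H₀ τ₀) :
    ∃ (H : Mat n) (κ : ℝ), IsOptimalMetric T H κ ∧ 1 ≤ κ := by
  classical
  let F : Set (Mat n × ℝ) := {p | MetricFeasible T p.1 p.2} ∩ {p | p.2 ≤ τ₀}
  have hFcl : IsClosed F := (isClosed_feasible T).inter (isClosed_le continuous_snd continuous_const)
  have hτ1 := one_le_of_feasible hn h₀
  have hFb : Bornology.IsBounded F := by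
    refine (Metric.isBounded_iff_subset_closedBall 0).2 ⟨max ((n : ℝ) * ((n : ℝ) * τ₀)) τ₀, ?_⟩
    rintro ⟨H, τ⟩ ⟨h1, h2⟩
    have h1' : MetricFeasible T H τ := h1
    have h2' : τ ≤ τ₀ := h2
    have hτ := one_le_of_feasible hn h1'
    have hH := posSemidef_of_feasible h1'
    have ht := trace_le_of_feasible h1'
    have ht0 := trace_re_nonneg hH
    have hf := fro_le_of_posSemidef H hH
    rw [fro_eq_norm_sq] at hf
    have hn0 : (0 : ℝ) ≤ n := Nat.cast_nonneg n
    have hnorm : ‖H‖ ≤ (n : ℝ) * ((n : ℝ) * τ₀) := by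
      have h3 : H.trace.re ≤ (n : ℝ) * τ₀ := ht.trans (mul_le_mul_of_nonneg_left h2' hn0)
      have h4 : ‖H‖ ^ 2 ≤ ((n : ℝ) * ((n : ℝ) * τ₀)) ^ 2 := by
        rw [mul_pow]
        exact hf.trans (mul_le_mul_of_nonneg_left (pow_le_pow_left₀ ht0 h3 2) (by positivity))
      exact (sq_le_sq₀ (norm_nonneg _) (by positivity)).1 h4
    rw [mem_closedBall_zero_iff, Prod.norm_def]
    refine max_le (hnorm.trans (le_max_left _ _)) ?_
    rw [Real.norm_of_nonneg (by linarith)]
    exact h2'.trans (le_max_right _ _)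
  have hFc : IsCompact F := Metric.isCompact_of_isClosed_isBounded hFcl hFb
  have hFne : F.Nonempty := ⟨(H₀, τ₀), h₀, (le_refl τ₀ : (H₀, τ₀).2 ≤ τ₀)⟩
  obtain ⟨⟨H, κ⟩, hmem, hmin⟩ := hFc.exists_isMinOn hFne (continuous_snd.continuousOn)
  refine ⟨H, κ, ⟨hmem.1, ?_⟩, one_le_of_feasible hn hmem.1⟩
  intro H' τ' hf'
  by_cases hle : τ' ≤ τ₀
  · exact hmin (show (H', τ') ∈ F from ⟨hf', hle⟩)
  · push Not at hle
    exact (show κ ≤ τ₀ from hmem.2).trans hle.le

/-- Main conclusion of the duality part. -/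
theorem metric_conclusion (hn : 1 ≤ n) (T : Mat n) (hT : Summable fun k => ‖T ^ k‖)
    (hCB : CBound T) :
    (∃ (H : Mat n) (τ : ℝ), MetricStrictlyFeasible T H τ) ∧
    ∃ (H : Mat n) (κsq : ℝ), IsOptimalMetric T H κsq ∧ 1 ≤ κsq ∧ κsq ≤ 4 := by
  obtain ⟨H₅, h₅⟩ := exists_strict hn T hT hCB 5 (by norm_num)
  refine ⟨⟨H₅, 5, h₅⟩, ?_⟩
  obtain ⟨H, κ, hopt, hκ⟩ := exists_optimal hn T (feasible_of_strict h₅)
  refine ⟨H, κ, hopt, hκ, ?_⟩
  refine le_of_forall_pos_le_add fun ε hε => ?_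
  obtain ⟨H', h'⟩ := exists_strict hn T hT hCB (4 + ε) (by linarith)
  exact hopt.2 H' _ (feasible_of_strict h')

end Crest.Agent.CrouzeixMetric
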