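import Crest.Agent.CrouzeixMetric.Dual
import Crest.Prelude.Def_NumRangeMetric

set_option autoImplicit false

open scoped ComplexOrder
open Matrix

namespace Crest.Agent.CrouzeixMetric

attribute [local instance] Matrix.frobeniusNormedAddCommGroup Matrix.frobeniusNormedSpace
  Matrix.frobeniusNormedRing Matrix.frobeniusNormedAlgebra

variable {n : ℕ}

/-- Every real-linear functional on matrices is represented on Hermitian matrices by a Hermitian
matrix through the real part of the trace pairing. -/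
lemma exists_hermitian_rep (φ : Mat n →ₗ[ℝ] ℝ) :
    ∃ Z : Mat n, Z.IsHermitian ∧ ∀ M : Mat n, M.IsHermitian → φ M = (Z * M).trace.re := by
  classical
  let Z₀ : Mat n := Matrix.of fun j i =>
    ((φ (Matrix.single i j (1 : ℂ)) : ℝ) : ℂ) - Complex.I * ((φ (Matrix.single i j Complex.I) : ℝ) : ℂ)
  have hφ : ∀ M : Mat n, φ M = (Z₀ * M).trace.re := by
    intro M
    have hs : ∀ i j, Matrix.single i j (M i j) = (M i j).re • Matrix.single i j (1 : ℂ)
        + (M i j).im • Matrix.single i j Complex.I := by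
      intro i j
      ext a b
      simp only [Matrix.add_apply, Matrix.smul_apply, Matrix.single_apply]
      split_ifs with h
      · simp only [Complex.real_smul, mul_one]
        conv_lhs => rw [← Complex.re_add_im (M i j)]
      · simp
    have hM : M = ∑ i, ∑ j, ((M i j).re • Matrix.single i j (1 : ℂ)
        + (M i j).im • Matrix.single i j Complex.I) := by
      conv_lhs => rw [Matrix.matrix_eq_sum_single M]
      exact Finset.sum_congr rfl fun i _ => Finset.sum_congr rfl fun j _ => hs i j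
    have h1 : φ M = ∑ i, ∑ j, ((M i j).re * φ (Matrix.single i j (1 : ℂ))
        + (M i j).im * φ (Matrix.single i j Complex.I)) := by
      conv_lhs => rw [hM]
      simp only [map_sum, map_add, map_smul, smul_eq_mul]
    rw [h1]
    simp only [Matrix.trace, Matrix.diag_apply, Matrix.mul_apply, Complex.re_sum]
    rw [Finset.sum_comm]
    refine Finset.sum_congr rfl fun i _ => Finset.sum_congr rfl fun j _ => ?_
    simp only [Z₀, Matrix.of_apply, Complex.mul_re, Complex.sub_re, Complex.ofReal_re,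
      Complex.mul_im, Complex.I_re, Complex.I_im, Complex.ofReal_im, Complex.sub_im]
    ring
  let Z : Mat n := (1 / 2 : ℝ) • (Z₀ + Z₀ᴴ)
  refine ⟨Z, ?_, ?_⟩
  · simp only [Z, Matrix.IsHermitian, conjTranspose_smul, conjTranspose_add,
      conjTranspose_conjTranspose]
    simp [add_comm]
  · intro M hM
    have h2 : (Z₀ᴴ * M).trace.re = (Z₀ * M).trace.re := by
      have : (Z₀ᴴ * M) = (M * Z₀)ᴴ := by rw [conjTranspose_mul, hM.eq]
      rw [this, Matrix.trace_conjTranspose, Matrix.trace_mul_comm]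
      simp
    have h3 : (Z * M).trace = (1 / 2 : ℝ) • ((Z₀ * M).trace + (Z₀ᴴ * M).trace) := by
      simp only [Z, Matrix.smul_mul, Matrix.add_mul, Matrix.trace_smul, Matrix.trace_add]
    rw [h3, hφ M]
    simp only [Complex.real_smul, Complex.mul_re, Complex.add_re, Complex.ofReal_re,
      Complex.ofReal_im, zero_mul, sub_zero, h2]
    ring

/-- Entries of a positive semidefinite matrix are bounded by its trace. -/
lemma fro_le_of_posSemidef (X : Mat n) (hX : X.PosSemidef) : fro X ≤ (n : ℝ) ^ 2 * X.trace.re ^ 2 := by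
  obtain ⟨x, rfl⟩ := exists_factor X hX
  rw [trace_mul_conjTranspose_re]
  have hentry : ∀ i j, ‖(x * xᴴ) i j‖ ≤ fro x := by
    intro i j
    simp only [Matrix.mul_apply, Matrix.conjTranspose_apply]
    calc ‖∑ k, x i k * star (x j k)‖ ≤ ∑ k, ‖x i k * star (x j k)‖ := norm_sum_le _ _
      _ ≤ ∑ k, (‖x i k‖ ^ 2 + ‖x j k‖ ^ 2) / 2 := by
          refine Finset.sum_le_sum fun k _ => ?_
          rw [norm_mul, norm_star]
          nlinarith [sq_nonneg (‖x i k‖ - ‖x j k‖)]
      _ = (∑ k, ‖x i k‖ ^ 2 + ∑ k, ‖x j k‖ ^ 2) / 2 := by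
          rw [← Finset.sum_add_distrib, Finset.sum_div]
      _ ≤ (fro x + fro x) / 2 := by
          have h : ∀ a : Fin n, ∑ k, ‖x a k‖ ^ 2 ≤ fro x := by
            intro a
            exact Finset.single_le_sum (f := fun a => ∑ k, ‖x a k‖ ^ 2)
              (fun _ _ => Finset.sum_nonneg fun _ _ => by positivity) (Finset.mem_univ a)
          linarith [h i, h j]
      _ = fro x := by ring
  have h0 := fro_nonneg x
  calc fro (x * xᴴ) = ∑ i, ∑ j, ‖(x * xᴴ) i j‖ ^ 2 := rfl
    _ ≤ ∑ i : Fin n, ∑ j : Fin n, (fro x) ^ 2 := by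
        refine Finset.sum_le_sum fun i _ => Finset.sum_le_sum fun j _ => ?_
        exact pow_le_pow_left₀ (norm_nonneg _) (hentry i j) 2
    _ = (n : ℝ) ^ 2 * fro x ^ 2 := by
        simp; ring

lemma isClosed_posSemidef : IsClosed {X : Mat n | X.PosSemidef} := by
  have h : {X : Mat n | X.PosSemidef} = {X : Mat n | Xᴴ = X} ∩
      ⋂ x : Fin n → ℂ, {X : Mat n | 0 ≤ star x ⬝ᵥ (X *ᵥ x)} := by
    ext X
    simp only [Set.mem_ofPred_eq, Set.mem_inter_iff, Set.mem_iInter]
    rw [posSemidef_iff_dotProduct_mulVec]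
    rfl
  rw [h]
  refine IsClosed.inter ?_ (isClosed_iInter fun x => ?_)
  · exact isClosed_eq (continuous_id.matrix_conjTranspose) continuous_id
  · have hc : Continuous fun X : Mat n => star x ⬝ᵥ (X *ᵥ x) := by
      exact continuous_const.dotProduct (continuous_id.matrix_mulVec continuous_const)
    exact isClosed_Ici.preimage hc

/-- The map whose image we separate from the non-positive axis. -/
noncomputable def Psi (T : Mat n) (τ : ℝ) : (Mat n × Mat n × Mat n) →ₗ[ℝ] (Mat n × ℝ) where
  toFun p := (p.1 - p.2.1 + p.2.2 - T * p.2.2 * Tᴴ, τ * p.2.1.trace.re - p.1.trace.re)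
  map_add' p q := by
    refine Prod.ext ?_ ?_
    · simp only [Prod.fst_add, Prod.snd_add, Matrix.mul_add, Matrix.add_mul]
      abel
    · simp only [Prod.fst_add, Prod.snd_add, Matrix.trace_add, Complex.add_re]
      ring
  map_smul' c p := by
    refine Prod.ext ?_ ?_
    · simp only [Prod.smul_fst, Prod.smul_snd, RingHom.id_apply, Matrix.mul_smul, Matrix.smul_mul,
        smul_add, smul_sub]
    · simp only [Prod.smul_fst, Prod.smul_snd, RingHom.id_apply, Matrix.trace_smul, Complex.real_smul,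
        Complex.mul_re, Complex.ofReal_re, Complex.ofReal_im, zero_mul, sub_zero, smul_eq_mul]
      ring

noncomputable instance : LocallyConvexSpace ℝ (Mat n × ℝ) :=
  inferInstanceAs (LocallyConvexSpace ℝ ((Fin n → Fin n → ℂ) × ℝ))

/-- The compact convex base of the dual cone. -/
def baseSet (n : ℕ) : Set (Mat n × Mat n × Mat n) :=
  {p | p.1.PosSemidef ∧ p.2.1.PosSemidef ∧ p.2.2.PosSemidef ∧
    p.1.trace.re + p.2.1.trace.re + p.2.2.trace.re = 1}

lemma trace_re_nonneg {X : Mat n} (hX : X.PosSemidef) : 0 ≤ X.trace.re := by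
  exact (Complex.le_def.1 hX.trace_nonneg).1

noncomputable instance : ProperSpace (Mat n) := FiniteDimensional.proper_real _

lemma isCompact_baseSet : IsCompact (baseSet n) := by
  have hclosed : IsClosed (baseSet n) := by
    have h : baseSet n = (Prod.fst ⁻¹' {X : Mat n | X.PosSemidef}) ∩
        ((fun p : Mat n × Mat n × Mat n => p.2.1) ⁻¹' {X : Mat n | X.PosSemidef}) ∩
        ((fun p : Mat n × Mat n × Mat n => p.2.2) ⁻¹' {X : Mat n | X.PosSemidef}) ∩
        {p | p.1.trace.re + p.2.1.trace.re + p.2.2.trace.re = 1} := by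
      ext p
      simp [baseSet, and_assoc]
    rw [h]
    refine IsClosed.inter (IsClosed.inter (IsClosed.inter ?_ ?_) ?_) ?_
    · exact isClosed_posSemidef.preimage continuous_fst
    · exact isClosed_posSemidef.preimage (continuous_fst.comp continuous_snd)
    · exact isClosed_posSemidef.preimage (continuous_snd.comp continuous_snd)
    · refine isClosed_eq ?_ continuous_const
      have c1 : Continuous fun p : Mat n × Mat n × Mat n => p.1.trace.re :=
        Complex.continuous_re.comp (continuous_fst.matrix_trace)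
      have c2 : Continuous fun p : Mat n × Mat n × Mat n => p.2.1.trace.re :=
        Complex.continuous_re.comp ((continuous_fst.comp continuous_snd).matrix_trace)
      have c3 : Continuous fun p : Mat n × Mat n × Mat n => p.2.2.trace.re :=
        Complex.continuous_re.comp ((continuous_snd.comp continuous_snd).matrix_trace)
      exact (c1.add c2).add c3
  refine Metric.isCompact_of_isClosed_isBounded hclosed ?_
  have hb : ∀ X : Mat n, X.PosSemidef → X.trace.re ≤ 1 → ‖X‖ ≤ n := by
    intro X hX h1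
    have h2 := fro_le_of_posSemidef X hX
    rw [fro_eq_norm_sq] at h2
    have h3 : X.trace.re ^ 2 ≤ 1 := by
      have := trace_re_nonneg hX
      nlinarith
    have h4 : ‖X‖ ^ 2 ≤ (n : ℝ) ^ 2 := by
      have : (0 : ℝ) ≤ (n : ℝ) ^ 2 := by positivity
      nlinarith
    exact (sq_le_sq₀ (norm_nonneg _) (Nat.cast_nonneg _)).1 h4
  refine (Metric.isBounded_iff_subset_closedBall 0).2 ⟨n, fun p hp => ?_⟩
  obtain ⟨h1, h2, h3, h4⟩ := hp
  have t1 := trace_re_nonneg h1
  have t2 := trace_re_nonneg h2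
  have t3 := trace_re_nonneg h3
  rw [mem_closedBall_zero_iff, Prod.norm_def, Prod.norm_def]
  refine max_le (hb _ h1 (by linarith)) (max_le (hb _ h2 (by linarith)) (hb _ h3 (by linarith)))

lemma convex_baseSet : Convex ℝ (baseSet n) := by
  intro p hp q hq a b ha hb hab
  obtain ⟨p1, p2, p3, p4⟩ := hp
  obtain ⟨q1, q2, q3, q4⟩ := hq
  have hsm : ∀ (c : ℝ), 0 ≤ c → ∀ X : Mat n, X.PosSemidef → (c • X).PosSemidef := by
    intro c hc X hX
    exact hX.smul hc
  refine ⟨(hsm a ha _ p1).add (hsm b hb _ q1), (hsm a ha _ p2).add (hsm b hb _ q2),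
    (hsm a ha _ p3).add (hsm b hb _ q3), ?_⟩
  simp only [Prod.fst_add, Prod.smul_fst, Prod.snd_add, Prod.smul_snd, Matrix.trace_add,
    Matrix.trace_smul, Complex.add_re, Complex.real_smul, Complex.mul_re, Complex.ofReal_re,
    Complex.ofReal_im, zero_mul, sub_zero]
  have : a * p.1.trace.re + b * q.1.trace.re + (a * p.2.1.trace.re + b * q.2.1.trace.re)
      + (a * p.2.2.trace.re + b * q.2.2.trace.re)
      = a * (p.1.trace.re + p.2.1.trace.re + p.2.2.trace.re)
        + b * (q.1.trace.re + q.2.1.trace.re + q.2.2.trace.re) := by ring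
  rw [this, p4, q4]
  linarith

/-- Separation: the core functional. -/
lemma sep_core (T : Mat n) (τ : ℝ)
    (hdual : ∀ X Y R : Mat n, X.PosSemidef → Y.PosSemidef → R.PosSemidef →
      X + R = Y + T * R * Tᴴ → (X = 0 ∧ Y = 0 ∧ R = 0) ∨ X.trace.re < τ * Y.trace.re) :
    ∃ (Z : Mat n) (w : ℝ), Z.IsHermitian ∧ 0 ≤ w ∧
      ∀ X Y R : Mat n, X.PosSemidef → Y.PosSemidef → R.PosSemidef →
        X.trace.re + Y.trace.re + R.trace.re = 1 →
        0 < (Z * (X - Y + R - T * R * Tᴴ)).trace.re + w * (τ * Y.trace.re - X.trace.re) := by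
  classical
  set Ψ := Psi T τ with hΨ
  let K : Set (Mat n × ℝ) := Ψ '' baseSet n
  let N : Set (Mat n × ℝ) := {q | q.1 = 0 ∧ q.2 ≤ 0}
  have hKc : IsCompact K := isCompact_baseSet.image (LinearMap.continuous_of_finiteDimensional Ψ)
  have hKv : Convex ℝ K := convex_baseSet.linear_image Ψ
  have hNc : IsClosed N := by
    refine IsClosed.inter ?_ ?_
    · exact isClosed_eq continuous_fst continuous_const
    · exact isClosed_le continuous_snd continuous_const
  have hNv : Convex ℝ N := by
    intro p hp q hq a b ha hb hab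
    refine ⟨?_, ?_⟩
    · simp [hp.1, hq.1]
    · simp only [Prod.snd_add, Prod.smul_snd, smul_eq_mul]
      nlinarith [hp.2, hq.2, mul_nonneg ha (neg_nonneg.2 hp.2), mul_nonneg hb (neg_nonneg.2 hq.2)]
  have hdisj : Disjoint K N := by
    rw [Set.disjoint_left]
    rintro _ ⟨p, hp, rfl⟩ ⟨h1, h2⟩
    obtain ⟨p1, p2, p3, p4⟩ := hp
    have h1' : p.1 - p.2.1 + p.2.2 - T * p.2.2 * Tᴴ = 0 := h1
    have h2' : τ * p.2.1.trace.re - p.1.trace.re ≤ 0 := h2
    have heq : p.1 + p.2.2 = p.2.1 + T * p.2.2 * Tᴴ := by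
      have : p.1 + p.2.2 - (p.2.1 + T * p.2.2 * Tᴴ) = 0 := by
        rw [← h1']; abel
      exact sub_eq_zero.1 this
    rcases hdual _ _ _ p1 p2 p3 heq with ⟨h0, h0', h0''⟩ | hlt
    · rw [h0, h0', h0''] at p4
      simp at p4
    · linarith
  obtain ⟨f, u, v, hfK, huv, hfN⟩ := geometric_hahn_banach_compact_closed hKv hKc hNv hNc hdisj
  -- the two components of `f`
  let φ : Mat n →ₗ[ℝ] ℝ := f.toLinearMap ∘ₗ LinearMap.inl ℝ (Mat n) ℝ
  let w : ℝ := f ((0 : Mat n), (1 : ℝ))
  have hf : ∀ (M : Mat n) (s : ℝ), f (M, s) = φ M + s * w := by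
    intro M s
    have : ((M, s) : Mat n × ℝ) = (M, (0 : ℝ)) + s • ((0 : Mat n), (1 : ℝ)) := by
      ext <;> simp
    rw [this, map_add, map_smul]
    rfl
  have hv : v < 0 := by
    have := hfN (0, 0) ⟨rfl, le_rfl⟩
    have h0 : f ((0 : Mat n), (0 : ℝ)) = 0 := map_zero f
    rwa [h0] at this
  have hw : w ≤ 0 := by
    by_contra hw
    push Not at hw
    have hmem : ((0 : Mat n), v / w) ∈ N := ⟨rfl, div_nonpos_of_nonpos_of_nonneg hv.le hw.le⟩
    have := hfN _ hmem
    rw [hf] at this
    have hφ0 : φ 0 = 0 := map_zero φ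
    rw [hφ0, zero_add, div_mul_cancel₀ _ hw.ne'] at this
    exact lt_irrefl _ this
  obtain ⟨Z, hZ, hZφ⟩ := exists_hermitian_rep φ
  refine ⟨-Z, -w, hZ.neg, by linarith, ?_⟩
  intro X Y R hX hY hR htr
  have hmem : (X, Y, R) ∈ baseSet n := ⟨hX, hY, hR, htr⟩
  have hlt := hfK _ ⟨_, hmem, rfl⟩
  have hΨapp : Ψ (X, Y, R) = (X - Y + R - T * R * Tᴴ, τ * Y.trace.re - X.trace.re) := rfl
  rw [hΨapp, hf] at hlt
  have hHerm : (X - Y + R - T * R * Tᴴ).IsHermitian := by
    refine ((hX.isHermitian.sub hY.isHermitian).add hR.isHermitian).sub ?_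
    have := hR.isHermitian
    simp only [Matrix.IsHermitian, conjTranspose_mul, conjTranspose_conjTranspose, this.eq]
    rw [Matrix.mul_assoc]
  rw [hZφ _ hHerm] at hlt
  have h3 : (-Z * (X - Y + R - T * R * Tᴴ)).trace.re = -((Z * (X - Y + R - T * R * Tᴴ)).trace.re) := by
    rw [Matrix.neg_mul, Matrix.trace_neg, Complex.neg_re]
  rw [h3]
  nlinarith

end Crest.Agent.CrouzeixMetric
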