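import Crest.Agent.CrouzeixMetric.Dual
import Crest.Prelude.Def_NumRangeMetric

set_option autoImplicit false

open scoped ComplexOrder ENNReal NNReal
open Matrix Crest.AnalysisR.NumRange Polynomial

namespace Crest.Agent.CrouzeixMetric

attribute [local instance] Matrix.frobeniusNormedAddCommGroup Matrix.frobeniusNormedSpace
  Matrix.frobeniusNormedRing Matrix.frobeniusNormedAlgebra

variable {n : ℕ}

/-- A matrix with spectrum inside the open unit disc has summable powers. -/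
theorem summable_pow_of_spectrum (hn : 1 ≤ n) (T : Mat n) (h : ∀ μ ∈ spectrum ℂ T, ‖μ‖ < 1) :
    Summable fun k => ‖T ^ k‖ := by
  classical
  have : Nonempty (Fin n) := ⟨⟨0, hn⟩⟩
  have : Nontrivial (Mat n) := inferInstance
  obtain ⟨μ, hμ, hμr⟩ := spectrum.exists_nnnorm_eq_spectralRadius T
  have hρ : spectralRadius ℂ T < 1 := by
    rw [← hμr]
    have := h μ hμ
    exact_mod_cast this
  obtain ⟨q, hq1, hq2⟩ := ENNReal.lt_iff_exists_nnreal_btwn.1 hρ
  have hq2' : (q : ℝ) < 1 := by exact_mod_cast hq2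
  have hlim := spectrum.pow_nnnorm_pow_one_div_tendsto_nhds_spectralRadius T
  have hev : ∀ᶠ k : ℕ in Filter.atTop, ((‖T ^ k‖₊ : ℝ≥0∞)) ^ (1 / (k : ℝ)) < q :=
    hlim.eventually (gt_mem_nhds hq1)
  have hbound : ∀ᶠ k : ℕ in Filter.atTop, ‖T ^ k‖ ≤ (q : ℝ) ^ k := by
    filter_upwards [hev, Filter.eventually_gt_atTop 0] with k hk hk0
    have hk0' : (0 : ℝ) < k := by exact_mod_cast hk0
    have h1 : (‖T ^ k‖₊ : ℝ≥0∞) < (q : ℝ≥0∞) ^ k := by
      have h2 := ENNReal.rpow_lt_rpow hk hk0'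
      rw [← ENNReal.rpow_mul, one_div, inv_mul_cancel₀ hk0'.ne', ENNReal.rpow_one,
        ENNReal.rpow_natCast] at h2
      exact h2
    have h3 : (‖T ^ k‖₊ : ℝ≥0∞) < ((q ^ k : ℝ≥0) : ℝ≥0∞) := by
      simpa using h1
    have h4 : ‖T ^ k‖₊ < q ^ k := by exact_mod_cast h3
    have h5 : (‖T ^ k‖₊ : ℝ) < ((q ^ k : ℝ≥0) : ℝ) := by exact_mod_cast h4
    simpa using h5.le
  have hgeo : Summable fun k : ℕ => (q : ℝ) ^ k :=
    summable_geometric_of_lt_one q.coe_nonneg hq2'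
  refine Summable.of_norm_bounded_eventually_nat hgeo ?_
  filter_upwards [hbound] with k hk
  simpa using hk

/-- Eigenvalues lie in the numerical range. -/
lemma spectrum_subset_numRange (A : Mat n) : spectrum ℂ A ⊆ numRange A := by
  classical
  intro μ hμ
  rw [← Matrix.spectrum_toEuclideanLin] at hμ
  have hE := Module.End.hasEigenvalue_iff_mem_spectrum.2 hμ
  obtain ⟨v, hv⟩ := hE.exists_hasEigenvector
  have hv0 : v ≠ 0 := hv.2
  have hnv : ‖v‖ ≠ 0 := norm_ne_zero_iff.2 hv0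
  refine ⟨((‖v‖⁻¹ : ℝ) : ℂ) • v, ?_, ?_⟩
  · rw [norm_smul, Complex.norm_real, Real.norm_of_nonneg (by positivity)]
    field_simp
  · rw [map_smul, hv.apply_eq_smul, inner_smul_left, inner_smul_right, inner_smul_right,
      inner_self_eq_norm_sq_to_K]
    simp only [Complex.conj_ofReal, Complex.coe_algebraMap]
    have : ((‖v‖ : ℝ) : ℂ) ≠ 0 := by exact_mod_cast hnv
    push_cast
    field_simp

/-- The spectrum of `p(A)` lies in the open disc. -/
lemma spectrum_aeval_lt_one (hn : 1 ≤ n) (A : Mat n) {Ω : Set ℂ} {f : ℂ → ℂ}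
    (hf : f '' Ω ⊆ Metric.ball 0 1) (hA : numRange A ⊆ Ω) {p : ℂ[X]} (hp : AgreesOnSpectrum A f p) :
    ∀ μ ∈ spectrum ℂ (aeval A p), ‖μ‖ < 1 := by
  classical
  have : Nonempty (Fin n) := ⟨⟨0, hn⟩⟩
  have : Nontrivial (Mat n) := inferInstance
  intro μ hμ
  have hne : (spectrum ℂ A).Nonempty := spectrum.nonempty A
  rw [spectrum.map_polynomial_aeval_of_nonempty A p hne] at hμ
  obtain ⟨lam, hlam, rfl⟩ := hμ
  have h0 := hp lam hlam 0 (by omega)
  simp only [iteratedDeriv_zero] at h0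
  simp only
  rw [h0]
  have h1 : f lam ∈ Metric.ball (0 : ℂ) 1 :=
    hf ⟨lam, hA (spectrum_subset_numRange A hlam), rfl⟩
  simpa using h1

end Crest.Agent.CrouzeixMetric
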